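import Crest.Agent.X212.Ell97.Nab
import Crest.Agent.X212.Cht98.Reg
import Crest.Agent.X212.Cht98.Rel
import Crest.Agent.X212.Sob92.Fun

/-! Elliptic theory: the scales without hypotheses, smooth solutions, closed manifolds. -/

set_option autoImplicit false
set_option linter.unusedSectionVars false
noncomputable section
open scoped Manifold ContDiff Topology InnerProductSpace
open MeasureTheory Set Function Filter Module

namespace Crest.Agent.X212.Ell97
open An An.Pre Sob92

variable {E : Type} [NormedAddCommGroup E] [NormedSpace ℝ E] [FiniteDimensional ℝ E]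
  [MeasurableSpace E] [BorelSpace E]
  {HM : Type} [TopologicalSpace HM] {I : ModelWithCorners ℝ E HM}
  {M : Type} [TopologicalSpace M] [ChartedSpace HM M] [IsManifold I ∞ M]
  [MeasurableSpace M] {ι : Type} [Fintype ι]
  {U V W : Type} [NormedAddCommGroup U] [InnerProductSpace ℝ U]
  [NormedAddCommGroup V] [InnerProductSpace ℝ V] [NormedAddCommGroup W] [InnerProductSpace ℝ W]
  [T2Space M] [BorelSpace M] [SecondCountableTopology M]
  {F : Fr I M ι} {A : Op M ι V W} {C C' : ℕ → ℝ}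

variable (F A) in
/-- the smooth (compactly supported) kernel -/
def kerS : Submodule ℝ (Sec I A.p) where
  carrier := {u | A.app F u.1 = 0}
  add_mem' {u v} hu hv := funext fun x => by
    rw [Submodule.coe_add, app_add u.2.1 v.2.1, show A.app F u.1 = 0 from hu,
      show A.app F v.1 = 0 from hv]; simp
  zero_mem' := funext fun x => by simp [Op.app, Pre.op, Pre.D_def]
  smul_mem' r u hu := funext fun x => by
    have h : A.app F u.1 x = 0 := congrFun hu x
    simp only [Op.app, Pre.op] at h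
    simp only [Op.app, Pre.op, Submodule.coe_smul, F.D_smul u.2.1, Pi.smul_apply, map_smul,
      ← Finset.smul_sum, ← smul_add, h, smul_zero, Pi.zero_apply]

theorem mem_kerS {u : Sec I A.p} : u ∈ kerS F A ↔ A.app F u.1 = 0 := Iff.rfl

theorem integ_L2 {F : Pre I M ι} {g ψ : M → V} (hg : MemLp g 2 F.μ) (hψ : Sm I ψ)
    (hc : HasCompactSupport ψ) : Integrable (fun x => ⟪g x, ψ x⟫_ℝ) F.μ := by
  have h := memLp_T F (tst ψ hψ hc)
  refine (L2.integrable_inner (𝕜 := ℝ) (hg.toLp g) (h.toLp _)).congr ?_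
  filter_upwards [hg.coeFn_toLp, h.coeFn_toLp] with x h1 h2
  rw [h1, h2]; rfl

variable [FiniteDimensional ℝ V] [I.Boundaryless]

variable (V F) in
theorem reg : Reg V F := by
  intro u ua σ B f hu hua hσ hB hf h1 h2
  refine Cht98.reg F hu hua (B := fun a x => Op.tr (σ a x)) (B0 := fun x => Op.tr (B x))
    (fun a => (trL V V).contMDiff.comp (hσ a)) ((trL V V).contMDiff.comp hB) hf
    (fun a φ h3 h4 => ?_) fun φ h3 h4 => ?_
  · rw [h1 a φ h3 h4, ← integral_neg]
    simp only [← inner_neg_right, neg_add, sub_eq_add_neg]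
  · have i1 := fun a => integ_L2 (hua a) (mul _ (hσ a) (tst φ h3 h4)).2.1
      (mul _ (hσ a) (tst φ h3 h4)).2.2.1
    have i2 := integ_L2 hu (mul _ hB (tst φ h3 h4)).2.1 (mul _ hB (tst φ h3 h4)).2.2.1
    have i3 : Integrable (fun x => ⟪f x, φ x⟫_ℝ) F.μ := by
      simpa only [real_inner_comm] using F.integrable_inner h3.continuous h4 hf.continuous
    have i4 := integrable_finsetSum Finset.univ fun a _ => i1 a
    simp only [inner_add_left, sum_inner, tr_inner]
    rw [h2 φ h3 h4]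
    refine Eq.symm ((integral_add (i4.add i2) i3).trans ?_)
    rw [show (∫ x, ((fun x => ∑ a, ⟪ua a x, (mul _ (hσ a) (tst φ h3 h4)).1 x⟫_ℝ) +
      fun x => ⟪u x, (mul _ hB (tst φ h3 h4)).1 x⟫_ℝ) x ∂F.μ) = _ from integral_add i4 i2,
      integral_finsetSum _ fun a _ => i1 a]
    simp only [mul_val, tst]
    ring

/-- **`1 + ∇*∇` is bijective on every tame manifold.** -/
theorem lap_bij {A : ι → M → V →L[ℝ] V} (hF : F.Tame C) (hA : ∀ a, F.Cb (A a))
    (hs : ∀ a x, Wz78.Skew (A a x)) (k : ℕ) : Bijective (lapH F A k) :=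
  lapH_bij (reg V F) hF hA hs k

/-- an element of all levels is smooth, with all derivatives bounded and square integrable -/
theorem smooth_of_all (hF : F.Tame C) {p : M → V →L[ℝ] V} {k : ℕ} {x : F.H k p}
    (h : ∀ j, k ≤ j → ∃ y : F.H j p, F.incl j k p y = x) :
    ∃ u : M → V, F.Cb u ∧ (∀ j, FL F.toPre j u) ∧ (∀ y, p y (u y) = u y) ∧ Is F.toPre k p x u := by
  have := FiniteDimensional.complete ℝ V
  obtain ⟨y, rfl⟩ := h (k + 4) (by omega)
  have hS := Sup.of_tame hF
  have h1 : ∀ j, k + 4 ≤ j → ∃ z : F.H j p, F.incl j (k + 4) p z = y := fun j hj => by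
    obtain ⟨z, hz⟩ := h j (by omega)
    exact ⟨z, incl_inj F (by omega : k ≤ k + 4) p (by rw [incl_incl hj (by omega), hz])⟩
  have h2 := Cb_val hS (by omega) h1
  have h3 := Is.val hS (by omega) y
  refine ⟨_, h2, fun j => ?_, val_proj hS (by omega) y, h3.incl (by omega)⟩
  obtain ⟨z, hz⟩ := h1 (k + 4 + j) (by omega)
  subst hz
  exact ML.of_le ((h3.of_incl (by omega)).FL h2.choose_spec.1) (by omega)

variable (F) in
theorem toH_inj (k : ℕ) (p : M → V →L[ℝ] V) : Injective (F.toH k p) := by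
  have := FiniteDimensional.complete ℝ V
  have := openPos F.toPre
  intro u v h
  exact Subtype.ext ((Continuous.ae_eq_iff_eq F.μ u.2.1.continuous v.2.1.continuous).1
    ((Is.toH (k := k) u).symm.trans (h ▸ Is.toH v)))

theorem sec_of_all [CompactSpace M] (hF : F.Tame C) {p : M → V →L[ℝ] V} {k : ℕ} {x : F.H k p}
    (h : ∀ j, k ≤ j → ∃ y : F.H j p, F.incl j k p y = x) : ∃ u : Sec I p, F.toH k p u = x := by
  have := FiniteDimensional.complete ℝ V
  obtain ⟨u, h1, -, h2, h3⟩ := smooth_of_all hF h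
  exact ⟨⟨u, h1.choose_spec.1, HasCompactSupport.of_compactSpace u, h2⟩, (Is.toH _).unique h3⟩

variable [FiniteDimensional ℝ W]

/-- the scales of an operator with injective conformal symbol -/
def hlf (hF : F.Tame C) (hA : A.Good F C') (hc : A.CliffL F) :
    Half (fun k => F.H k A.p) (fun k => F.H k A.q) := half (reg V F) hF hA hc

/-- the scales of an operator of Dirac type -/
def par (hF : F.Tame C) (hA : A.Good F C') (hc : A.Cliff F) :
    Pair (fun k => F.H k A.p) (fun k => F.H k A.q) := pair (reg V F) (reg W F) hF hA hc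

section
variable (hF : F.Tame C) (hA : A.Good F C')
include hF hA

theorem Qa_bij (hc : A.CliffL F) (k : ℕ) : Bijective (Qa F A k) := (hlf hF hA hc).Q_bij k

theorem adjH (x : F.H 1 A.p) (y : F.H 1 A.q) :
    ⟪A.H F 0 x, F.incl 1 0 A.q y⟫_ℝ = ⟪F.incl 1 0 A.p x, Hs F A 0 y⟫_ℝ := by
  obtain ⟨C'', h⟩ := good_adj hF hA
  induction x, y using H_ind₂ with
  | hP => exact isClosed_eq (by fun_prop) (by fun_prop)
  | h u w =>
    rw [H_toH hA, incl_toH zero_le_one, incl_toH zero_le_one, inner_toH]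
    exact (adj_ip hA u (toT _ w)).trans ((congrArg (fun z => ⟪F.toH 0 A.p u, z⟫_ℝ)
      (H_toH h 0 w)).trans (inner_toH _ _ _ _ _)).symm

/-- **Regularity**: `A x ∈ H j` implies `x ∈ H (j+1)`. -/
theorem reg_up (hc : A.CliffL F) {k j : ℕ} (hj : k ≤ j) {x : F.H (k + 1) A.p} {w : F.H j A.q}
    (h : A.H F k x = F.incl j k A.q w) :
    ∃ y : F.H (j + 1) A.p, F.incl (j + 1) (k + 1) A.p y = x ∧ A.H F j y = w := by
  induction j, hj using Nat.le_induction with
  | base => exact ⟨x, incl_self x, h.trans (incl_self w)⟩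
  | succ j hj ih =>
    obtain ⟨y, h1, h2⟩ := ih (w := F.incl (j + 1) j A.q w) (by rw [h, incl_incl j.le_succ hj])
    obtain ⟨z, h3, h4⟩ := (hlf hF hA hc).reg (k := j) h2
    exact ⟨z, by rw [← h1, ← h3]; exact (incl_incl (by omega) (by omega) z).symm, h4⟩

/-- **Regularity**: if `A x` lies in all levels then so does `x`. -/
theorem reg_all (hc : A.CliffL F) {k : ℕ} {x : F.H (k + 1) A.p}
    (h : ∀ j, k ≤ j → ∃ w : F.H j A.q, F.incl j k A.q w = A.H F k x) (j : ℕ) (hj : k + 1 ≤ j) :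
    ∃ y : F.H j A.p, F.incl j (k + 1) A.p y = x := by
  obtain ⟨j, rfl⟩ : ∃ j', j = j' + 1 := ⟨j - 1, by omega⟩
  obtain ⟨w, hw⟩ := h j (by omega)
  obtain ⟨y, hy, -⟩ := reg_up hF hA hc (by omega) hw.symm
  exact ⟨y, hy⟩

/-- on a closed manifold a solution with a smooth right hand side is smooth -/
theorem sec_of_eq [CompactSpace M] (hc : A.CliffL F) {k : ℕ} {x : F.H (k + 1) A.p}
    {w : Sec I A.q} (h : A.H F k x = F.toH k A.q w) :
    ∃ u : Sec I A.p, F.toH (k + 1) A.p u = x ∧ A.app F u.1 = w.1 := by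
  obtain ⟨u, rfl⟩ := sec_of_all hF (reg_all hF hA hc fun j hj => ⟨_, (incl_toH hj w).trans h.symm⟩)
  rw [H_toH hA] at h
  exact ⟨u, rfl, congrArg Subtype.val (toH_inj F k _ h)⟩

/-- the kernel on a closed manifold is the smooth kernel -/
def kerSEquiv [CompactSpace M] (hc : A.CliffL F) (k : ℕ) : kerS F A ≃ₗ[ℝ] (A.H F k).ker :=
  LinearEquiv.ofBijective ((F.toH (k + 1) A.p).restrict fun u hu => by
    change A.H F k _ = 0
    rw [H_toH hA, show LS hA u = 0 from Subtype.ext hu, map_zero])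
    ⟨fun u v h => Subtype.ext (toH_inj F _ _ (congrArg Subtype.val h)), fun x => by
      obtain ⟨u, h1, h2⟩ := sec_of_eq hF hA hc (w := 0) (x.2.trans (map_zero _).symm)
      exact ⟨⟨u, h2⟩, Subtype.ext h1⟩⟩

theorem gard (hc : A.CliffL F) (k : ℕ) :
    ∃ K, Fred93.Est (A.H F k) (F.incl (k + 1) 0 A.p) K :=
  let ⟨_, h⟩ := du_of hF hA
  let ⟨K, _, h1⟩ := (h.1 hc).estH
  ⟨K k, (h1 k).1⟩

theorem gard_adj (hc : (A.adj F).CliffL F) (k : ℕ) :
    ∃ K, Fred93.Est (Hs F A k) (F.incl (k + 1) 0 A.q) K :=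
  let ⟨_, h⟩ := du_of hF hA
  let ⟨K, _, h1⟩ := (h.2 hc).estH
  ⟨K k, (h1 k).1⟩

/-- on a closed manifold the kernel of the adjoint is its smooth kernel -/
def kerSEquivAdj [CompactSpace M] (hc : (A.adj F).CliffL F) (k : ℕ) :
    kerS F (A.adj F) ≃ₗ[ℝ] (Hs F A k).ker := kerSEquiv hF (good_adj hF hA).choose_spec hc k

variable [CompactSpace M]

theorem closed_range (hc : A.CliffL F) (k : ℕ) : IsClosed (range (A.H F k)) :=
  let ⟨_, h⟩ := gard hF hA hc k
  h.isClosed_range (Cht98.rellich k.succ_pos)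

theorem finite_kerS (hc : A.CliffL F) : FiniteDimensional ℝ (kerS F A) :=
  let ⟨_, h⟩ := gard hF hA hc 0
  have := h.finite_ker (Cht98.rellich zero_lt_one)
  (kerSEquiv hF hA hc 0).symm.finiteDimensional

theorem finite_kerS_adj (hc : (A.adj F).CliffL F) : FiniteDimensional ℝ (kerS F (A.adj F)) :=
  let ⟨_, h⟩ := gard_adj hF hA hc 0
  have := h.finite_ker (Cht98.rellich zero_lt_one)
  (kerSEquivAdj hF hA hc 0).symm.finiteDimensional

/-- **Operators of Dirac type on closed manifolds are Fredholm; the index is the difference of the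
dimensions of the smooth kernels.** -/
theorem fr (hc : A.Cliff F) (k : ℕ) :
    Fred93.Fr (A.H F k) ((finrank ℝ (kerS F A) : ℤ) - finrank ℝ (kerS F (A.adj F))) := by
  obtain ⟨_, h1⟩ := gard hF hA hc.1 0
  obtain ⟨_, h2⟩ := gard_adj hF hA hc.2 0
  rw [(kerSEquiv hF hA hc.1 0).finrank_eq, (kerSEquivAdj hF hA hc.2 0).finrank_eq]
  exact (par hF hA hc).fr_of_est (Cht98.rellich zero_lt_one) (Cht98.rellich zero_lt_one) h1 h2 k

/-- **The range is the `L²` complement of the smooth kernel of the adjoint.** -/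
theorem mem_range (hc : A.Cliff F) (k : ℕ) (y : F.H k A.q) : y ∈ range (A.H F k) ↔
    ∀ v : Sec I A.q, (A.adj F).app F v.1 = 0 → ⟪F.incl k 0 A.q y, F.toH 0 A.q v⟫_ℝ = 0 := by
  refine ((par hF hA hc).mem_range_iff (closed_range hF hA hc.1 0) k y).trans
    ⟨fun h v hv => ?_, fun h v hv => ?_⟩
  · rw [← dn0_incl, ← incl_toH zero_le_one]
    exact h _ (kerSEquivAdj hF hA hc.2 0 ⟨v, hv⟩).2
  · obtain ⟨u, hu⟩ := (kerSEquivAdj hF hA hc.2 0).surjective ⟨v, hv⟩
    obtain rfl : F.toH 1 A.q u.1 = v := congrArg Subtype.val hu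
    have := h u.1 u.2
    rw [← dn0_incl] at this
    exact (congrArg _ (incl_toH zero_le_one _)).trans this

theorem surj_iff (hc : A.Cliff F) (k : ℕ) : Surjective (A.H F k) ↔ kerS F (A.adj F) = ⊥ := by
  refine ((par hF hA hc).surj_iff (closed_range hF hA hc.1 0) k).trans ?_
  rw [← Submodule.subsingleton_iff_eq_bot, (kerSEquivAdj hF hA hc.2 0).toEquiv.subsingleton_congr,
    Submodule.subsingleton_iff_eq_bot, Submodule.eq_bot_iff]
  rfl

theorem inj_iff (hc : A.CliffL F) (k : ℕ) : Injective (A.H F k) ↔ kerS F A = ⊥ := by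
  rw [← Submodule.subsingleton_iff_eq_bot, (kerSEquiv hF hA hc k).toEquiv.subsingleton_congr,
    Submodule.subsingleton_iff_eq_bot]
  exact LinearMap.ker_eq_bot.symm

/-- `A* A` is Fredholm of index zero -/
theorem fr_LL (hc : A.CliffL F) (k : ℕ) : Fred93.Fr ((Hs F A k).comp (A.H F (k + 1))) 0 :=
  (hlf hF hA hc).fr_LL k (Cht98.rellich k.lt_succ_self)

theorem LL_bij (hc : A.CliffL F) (h0 : kerS F A = ⊥) (k : ℕ) :
    Bijective ((Hs F A k).comp (A.H F (k + 1))) :=
  (hlf hF hA hc).LL_bij k (Cht98.rellich k.lt_succ_self) ((inj_iff hF hA hc _).2 h0)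

omit hF in
/-- changing the zero order term is a compact perturbation -/
theorem compact_sub {B : M → V →L[ℝ] W} {C'' : ℕ → ℝ}
    (hB : (⟨A.p, A.q, A.σ, B⟩ : Op M ι V W).Good F C'') (k : ℕ) :
    IsCompactOperator ((⟨A.p, A.q, A.σ, B⟩ : Op M ι V W).H F k - A.H F k :
      F.H (k + 1) A.p →L[ℝ] F.H k A.q) := by
  have hm : Maps A.p A.q (B - A.B) := Maps.of_left fun x v => by
    have h1 : A.q x (B x v) = B x v := hB.qB x v
    simp only [Pi.sub_apply, _root_.sub_apply, map_sub, h1, hA.qB]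
  have e := RepT_eq (RepT_sub (rep_OpH hB k).1 (rep_OpH hA k).1)
    (RepT_comp (rep_mulH (k := k) (Cb_sub ⟨_, hB.B⟩ ⟨_, hA.B⟩) hm) (rep_incl k.le_succ))
    fun u => funext fun x => by simp [Op.app, Pre.op]
  rw [e]
  exact (Cht98.rellich k.lt_succ_self).clm_comp _

omit hF in
/-- **The index depends on the symbol only.** -/
theorem fr_congr {B : M → V →L[ℝ] W} {C'' : ℕ → ℝ}
    (hB : (⟨A.p, A.q, A.σ, B⟩ : Op M ι V W).Good F C'') {k : ℕ} {n : ℤ}
    (h : Fred93.Fr (A.H F k) n) : Fred93.Fr ((⟨A.p, A.q, A.σ, B⟩ : Op M ι V W).H F k) n :=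
  h.of_sub_compact (compact_sub hA hB k)

end

end Crest.Agent.X212.Ell97
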