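import Crest.Agent.X212.Ell97.Res
import Crest.Agent.X212.Wz78.Int

/-! The covariant derivative as a first order operator; `1 + ∇*∇` on the Sobolev scale. -/

set_option autoImplicit false
set_option linter.unusedSectionVars false
noncomputable section
open scoped Manifold ContDiff Topology InnerProductSpace
open MeasureTheory Set Function Filter

namespace Crest.Agent.X212.Ell97
open An An.Pre Sob92

variable {E : Type} [NormedAddCommGroup E] [NormedSpace ℝ E] [FiniteDimensional ℝ E]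
  [MeasurableSpace E] [BorelSpace E]
  {HM : Type} [TopologicalSpace HM] {I : ModelWithCorners ℝ E HM}
  {M : Type} [TopologicalSpace M] [ChartedSpace HM M] [IsManifold I ∞ M]
  [MeasurableSpace M] {ι : Type} [Fintype ι]
  {V : Type} [NormedAddCommGroup V] [InnerProductSpace ℝ V]

variable (ι V) in
/-- one-forms -/
abbrev F1 : Type := PiLp 2 fun _ : ι => V

variable (V) in
/-- a component -/
def pj (b : ι) : F1 ι V →L[ℝ] V := PiLp.proj 2 (fun _ : ι => V) b

open Classical in
variable (V) in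
/-- the inclusion of a component -/
def ij (b : ι) : V →L[ℝ] F1 ι V :=
  (PiLp.continuousLinearEquiv 2 ℝ fun _ : ι => V).symm.toContinuousLinearMap ∘L
    ContinuousLinearMap.single ℝ (fun _ : ι => V) b

@[simp] theorem pj_apply (b : ι) (w : F1 ι V) : pj V b w = w b := rfl

open Classical in
theorem ij_apply (b c : ι) (v : V) : ij V b v c = if c = b then v else 0 := by
  change (Pi.single b v : ι → V) c = _
  rw [Pi.single_apply]

theorem sum_ij (f : ι → V) (c : ι) : (∑ b, ij V b (f b)) c = f c := by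
  rw [← pj_apply, map_sum, Finset.sum_eq_single c (fun b _ hb => by simp [ij_apply, hb.symm])
    (by simp)]
  simp [ij_apply]

theorem inner_ij (b : ι) (v : V) (w : F1 ι V) : ⟪ij V b v, w⟫_ℝ = ⟪v, pj V b w⟫_ℝ := by
  rw [PiLp.inner_apply, Finset.sum_eq_single b (fun c _ hc => by simp [ij_apply, hc]) (by simp)]
  simp [ij_apply]

variable (F : Fr I M ι) (A : ι → M → V →L[ℝ] V)

/-- the covariant derivative -/
def nabOp : Op M ι V (F1 ι V) where
  p := triv M V
  q := triv M (F1 ι V)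
  σ a x := ∑ b, F.P a b x • ij V b
  B x := ∑ b, (ij V b).comp (A b x)

variable (V) in
/-- the symbol of its adjoint -/
def nabS (a : ι) (x : M) : F1 ι V →L[ℝ] V := -∑ b, F.P a b x • pj V b

/-- the zero order part of its adjoint -/
def nabB (x : M) : F1 ι V →L[ℝ] V := -∑ b, ((A b x).comp (pj V b) + F.dv b x • pj V b)

theorem nabOp_app (u : M → V) (x : M) :
    (nabOp F A).app F u x = ∑ b, ij V b (Wz78.nab I F.e A b u x) := by
  simp only [Op.app, Pre.op, nabOp, _root_.sum_apply, _root_.smul_apply,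
    ContinuousLinearMap.comp_apply, Wz78.nab, map_add, Finset.sum_add_distrib]
  congr 1
  rw [Finset.sum_comm]
  refine Finset.sum_congr rfl fun b _ => ?_
  rw [← F.D_def, ← sum_P_D F b u x, map_sum]
  simp only [map_smul, F.P_symm b]

theorem nabOp_app_apply (u : M → V) (x : M) (b : ι) :
    (nabOp F A).app F u x b = Wz78.nab I F.e A b u x := by rw [nabOp_app, sum_ij]

theorem nabDual_app {w : M → F1 ι V} (hw : Sm I w) (x : M) :
    (dual (nabOp F A) (nabS V F) (nabB F A)).app F w x =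
      -∑ b, (Wz78.nab I F.e A b (fun y => w y b) x + F.dv b x • w x b) := by
  have e : ∀ b, Sob92.dv I (F.e b) (fun y => w y b) x = ∑ a, F.P a b x • F.D a w x b := fun b => by
    have h := congrArg (pj V b) (sum_P_D F b w x)
    simp only [map_sum, map_smul, F.P_symm b] at h
    exact (dv_clm (pj V b) (md hw x)).trans h.symm
  simp only [Op.app, Pre.op, nabS, nabB, _root_.sum_apply, _root_.smul_apply, _root_.neg_apply,
    _root_.add_apply, ContinuousLinearMap.comp_apply, Wz78.nab, Finset.sum_add_distrib, e,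
    pj_apply, Finset.sum_neg_distrib]
  rw [Finset.sum_comm]
  abel

theorem nab_nab {u : M → V} (hA : ∀ a, Sm I (A a)) (hu : Sm I u) (x : M) :
    (dual (nabOp F A) (nabS V F) (nabB F A)).app F ((nabOp F A).app F u) x =
      Wz78.lap I F.e F.dv A u x := by
  have h : Sm I ((nabOp F A).app F u) := sm_op (fun a => contMDiff_finsetSum fun b _ =>
    (F.P_sm a b).smul contMDiff_const) (contMDiff_finsetSum fun b _ =>
      contMDiff_const.clm_comp (hA b)) hu
  rw [nabDual_app F A h]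
  simp only [nabOp_app_apply]
  rfl

theorem isProj_triv (F : Pre I M ι) {C : ℕ → ℝ} (hC : ∀ k, 1 ≤ C k) : F.IsProj (triv M V) C :=
  ⟨⟨contMDiff_const, fun k => CB_mono (CB_const k _)
    (ContinuousLinearMap.norm_id_le.trans (hC k))⟩, fun _ _ => rfl, fun _ _ _ => rfl⟩

variable [T2Space M] [BorelSpace M]

theorem du_nab_fam {J : Type*} {F : J → Fr I M ι} {A : J → ι → M → V →L[ℝ] V} {C : ℕ → ℝ}
    (hF : ∀ j, (F j).Tame C) (hA : ∀ j a, (F j).CBs (A j a) C)
    (hs : ∀ j a x, Wz78.Skew (A j a x)) :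
    ∃ C', ∀ j, Du (F j) (nabOp (F j) (A j)) (nabS V (F j)) (nabB (F j) (A j)) C' := by
  have hP : ∀ a b, UB (fun j => (F j).toPre) fun j => (F j).P a b :=
    fun a b => ⟨C, fun j => (hF j).P a b⟩
  have hA' : ∀ a, UB (fun j => (F j).toPre) fun j => A j a := fun a => ⟨C, fun j => hA j a⟩
  obtain ⟨C1, h1⟩ := UB.unif fun a => UB.sum fun (b : ι) => (hP a b).smul (UB.const (ij V b))
  obtain ⟨C2, h2⟩ := UB.sum fun (b : ι) => (UB.const (ij V b)).comp (hA' b)
  obtain ⟨C3, h3⟩ := UB.unif fun a => (UB.sum fun (b : ι) => (hP a b).smul (UB.const (pj V b))).neg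
  obtain ⟨C4, h4⟩ := (UB.sum fun (b : ι) => ((hA' b).comp (UB.const (pj V b))).add
    (UB.smul ⟨C, fun j => (hF j).dv b⟩ (UB.const (pj V b)))).neg
  have hi := fun j x => (Wz78.frPr (F j) x).idem
  refine ⟨fun k => max (max (max 1 (C k)) (C1 k)) (max (C2 k) (max (C3 k) (C4 k))), fun j =>
    ⟨Tame_mono (hF j) fun k => by simp,
      ⟨isProj_triv _ fun k => by simp, isProj_triv _ fun k => by simp,
        fun a => CBs_mono (h1 j a) fun k => by simp, CBs_mono (h2 j) fun k => by simp,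
        fun _ _ _ => rfl, fun _ _ _ => rfl, fun _ _ => rfl, fun a x => ?_⟩,
      ⟨isProj_triv _ fun k => by simp, isProj_triv _ fun k => by simp,
        fun a => CBs_mono (h3 j a) fun k => by simp, CBs_mono (h4 j) fun k => by simp,
        fun _ _ _ => rfl, fun _ _ _ => rfl, fun _ _ => rfl, fun a x => ?_⟩,
      fun (u : T I M V) (w : T I M (F1 ι V)) => ?_, fun a b x v => ?_⟩⟩
  · simp only [nabOp, Finset.smul_sum, smul_smul]
    rw [Finset.sum_comm]
    simp only [← Finset.sum_smul, hi j x]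
  · simp only [nabS, smul_neg, Finset.smul_sum, smul_smul, Finset.sum_neg_distrib]
    rw [Finset.sum_comm]
    simp only [← Finset.sum_smul, hi j x]
  · have e : ∀ b, (scl (F1 ι V) (F j).toPre).ip (mul (fun _ => ij V b) contMDiff_const
        (DT (F j).toPre b u + mul _ (hA j b).1 u)) w = (scl V (F j).toPre).ip u
        (Ds (F j) b (mul (fun _ => pj V b) contMDiff_const w) -
          mul _ (hA j b).1 (mul (fun _ => pj V b) contMDiff_const w)) := fun b => by
      rw [ip_mul _ contMDiff_const fun _ v w => inner_ij b v w, map_add, LinearMap.add_apply,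
        map_sub, ← ip_D, ip_mul (hA j b).1 (hA j b).1.neg (fun x v w => by simpa using hs j b x v w),
        sub_eq_add_neg, ← map_neg]
      rfl
    have e2 := Finset.sum_congr rfl fun b (_ : b ∈ Finset.univ) => e b
    rw [← LinearMap.sum_apply, ← map_sum, ← map_sum, scl_ip, scl_ip] at e2
    simp only [sum_val] at e2
    simp only [Pre.ip, nabOp_app, nabDual_app (F j) (A j) w.2.1, ← Finset.sum_neg_distrib]
    refine e2.trans (integral_congr_ae (.of_forall fun x => congrArg _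
      (Finset.sum_congr rfl fun b _ => ?_)))
    change -(F j).D b (fun y => w.1 y b) x - (F j).dv b x • w.1 x b - A j b x (w.1 x b) =
      -((F j).D b (fun y => w.1 y b) x + A j b x (w.1 x b) + (F j).dv b x • w.1 x b)
    abel
  · have e : ∀ a b, nabS V (F j) a x ((nabOp (F j) (A j)).σ b x v) = -((F j).P a b x • v) :=
      fun a b => by
      simp only [nabS, nabOp, _root_.sum_apply, _root_.smul_apply, _root_.neg_apply, pj_apply,
        ← map_smul, sum_ij, smul_smul, ← Finset.sum_smul, (F j).P_symm b, hi j x]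
    rw [e, e, (F j).P_symm b a]
    change _ = (-2 : ℝ) • (F j).P a b x • v
    module

variable [SecondCountableTopology M]

/-- `1 + ∇*∇` on the Sobolev scale -/
def lapH (k : ℕ) : F.H (k + 2) (triv M V) →L[ℝ] F.H k (triv M V) :=
  F.lift (k + 2) k _ _ fun u x => u x + Wz78.lap I F.e F.dv A u x

variable {F A} {C C' : ℕ → ℝ}

theorem du_nab (hF : F.Tame C) (hA : ∀ a, F.Cb (A a)) (hs : ∀ a x, Wz78.Skew (A a x)) :
    ∃ C', Du F (nabOp F A) (nabS V F) (nabB F A) C' := by
  obtain ⟨C1, h1⟩ := UB.unif (J := Unit) (F := fun _ => F.toPre) (f := fun a _ => A a)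
    fun a => let ⟨c, h⟩ := hA a; ⟨c, fun _ => h⟩
  obtain ⟨C', h⟩ := du_nab_fam (J := Unit) (C := fun k => max (C k) (C1 k))
    (fun _ => Tame_mono hF fun _ => le_max_left _ _)
    (fun _ a => CBs_mono (h1 () a) fun _ => le_max_right _ _) fun _ => hs
  exact ⟨C', h ()⟩

theorem Du.rep_lap (h : Du F (nabOp F A) (nabS V F) (nabB F A) C) (hA : ∀ a, Sm I (A a)) (k : ℕ) :
    F.Rep (QH F (nabOp F A) (nabS V F) (nabB F A) k) fun u x => u x + Wz78.lap I F.e F.dv A u x :=
  fun u => ⟨h.QS u, funext fun x => congrArg (u.1 x + ·) (nab_nab F A hA u.2.1 x), h.QH_toH k u⟩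

theorem Du.lapH_eq (h : Du F (nabOp F A) (nabS V F) (nabB F A) C) (hA : ∀ a, Sm I (A a)) (k : ℕ) :
    lapH F A k = QH F (nabOp F A) (nabS V F) (nabB F A) k := (h.rep_lap hA k).liftT_eq

theorem rep_lapH (hF : F.Tame C) (hA : ∀ a, F.Cb (A a)) (hs : ∀ a x, Wz78.Skew (A a x)) (k : ℕ) :
    F.Rep (lapH F A k) fun u x => u x + Wz78.lap I F.e F.dv A u x := by
  obtain ⟨C', h⟩ := du_nab hF hA hs
  have h1 : ∀ a, Sm I (A a) := fun a => (hA a).choose_spec.1
  rw [h.lapH_eq h1]
  exact h.rep_lap h1 k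

variable (I M V) in
/-- **Uniform resolvent and Gårding estimates for the connection Laplacian.** -/
theorem lap_unif (C : ℕ → ℝ) : ∃ K : ℕ → ℝ, (∀ k, 0 ≤ K k) ∧
    ∀ (F : Fr I M ι) (A : ι → M → V →L[ℝ] V), F.Tame C → (∀ a, F.CBs (A a) C) →
      (∀ a x, Wz78.Skew (A a x)) → ∀ k (x : F.H (k + 2) (triv M V)), ‖x‖ ≤ K k * ‖lapH F A k x‖ := by
  let J := {d : Fr I M ι × (ι → M → V →L[ℝ] V) //
    d.1.Tame C ∧ (∀ a, d.1.CBs (d.2 a) C) ∧ ∀ a x, Wz78.Skew (d.2 a x)}
  obtain ⟨C', h⟩ := du_nab_fam (J := J) (F := fun j => j.1.1) (A := fun j => j.1.2)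
    (fun j => j.2.1) (fun j => j.2.2.1) fun j => j.2.2.2
  obtain ⟨K, hK, h1⟩ := estH_fam h
  refine ⟨K, hK, fun F A h2 h3 h4 k x => ?_⟩
  rw [(h ⟨(F, A), h2, h3, h4⟩).lapH_eq fun a => (h3 a).1]
  exact (h1 ⟨(F, A), h2, h3, h4⟩ k).2 x

variable [FiniteDimensional ℝ V]

/-- the scales of the covariant derivative -/
def nabHalf (hr : Reg V F) (hF : F.Tame C) (hA : ∀ a, F.Cb (A a))
    (hs : ∀ a x, Wz78.Skew (A a x)) :
    Half (fun k => F.H k (triv M V)) (fun k => F.H k (triv M (F1 ι V))) :=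
  (du_nab hF hA hs).choose_spec.half hr

theorem nabHalf_Q (hr : Reg V F) (hF : F.Tame C) (hA : ∀ a, F.Cb (A a))
    (hs : ∀ a x, Wz78.Skew (A a x)) (k : ℕ) : (nabHalf hr hF hA hs).Q k = lapH F A k :=
  ((du_nab hF hA hs).choose_spec.lapH_eq (fun a => (hA a).choose_spec.1) k).symm

@[simp] theorem nabHalf_i (hr : Reg V F) (hF : F.Tame C) (hA : ∀ a, F.Cb (A a))
    (hs : ∀ a x, Wz78.Skew (A a x)) (k : ℕ) :
    (nabHalf hr hF hA hs).i k = F.incl (k + 1) k (triv M V) := rfl

/-- **`1 + ∇*∇` is bijective.** -/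
theorem lapH_bij (hr : Reg V F) (hF : F.Tame C) (hA : ∀ a, F.Cb (A a))
    (hs : ∀ a x, Wz78.Skew (A a x)) (k : ℕ) : Bijective (lapH F A k) :=
  nabHalf_Q hr hF hA hs k ▸ (nabHalf hr hF hA hs).Q_bij k

end Crest.Agent.X212.Ell97
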