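import Crest.Agent.X212.Ell97.Fo
import Crest.Agent.X212.Sob92.Ops

/-! Elliptic estimates for smooth sections, uniform in families with uniform bounds. -/

set_option autoImplicit false
set_option linter.unusedSectionVars false
noncomputable section
open scoped Manifold ContDiff Topology InnerProductSpace
open MeasureTheory Set Function Filter

namespace Crest.Agent.X212.Ell97
open An Sob92

variable {E : Type} [NormedAddCommGroup E] [NormedSpace ℝ E] [FiniteDimensional ℝ E]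
  [MeasurableSpace E] [BorelSpace E]
  {HM : Type} [TopologicalSpace HM] {I : ModelWithCorners ℝ E HM}
  {M : Type} [TopologicalSpace M] [ChartedSpace HM M] [IsManifold I ∞ M]
  [MeasurableSpace M] {ι : Type} [Fintype ι]
  {U V W : Type} [NormedAddCommGroup U] [InnerProductSpace ℝ U]
  [NormedAddCommGroup V] [InnerProductSpace ℝ V] [NormedAddCommGroup W] [InnerProductSpace ℝ W]

/-- an operator in the opposite direction -/
abbrev dual (A : Op M ι V W) (s : ι → M → W →L[ℝ] V) (B' : M → W →L[ℝ] V) : Op M ι W V :=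
  ⟨A.q, A.p, s, B'⟩

/-- an operator with its formal adjoint and the Clifford relation -/
structure Du (F : Fr I M ι) (A : Op M ι V W) (s : ι → M → W →L[ℝ] V) (B' : M → W →L[ℝ] V)
    (C : ℕ → ℝ) : Prop where
  tame : F.Tame C
  g : A.Good F C
  g' : (dual A s B').Good F C
  adj : ∀ (u : Sec I A.p) (w : Sec I A.q),
    F.ip 0 (A.app F u.1) w.1 = F.ip 0 u.1 ((dual A s B').app F w.1)
  cl : ∀ a b x v, s a x (A.σ b x v) + s b x (A.σ a x v) = (-2 : ℝ) • A.p x (F.P a b x • v)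

/-- the operator on test functions -/
def LT {F : Fr I M ι} {A : Op M ι V W} {C : ℕ → ℝ} (h : A.Good F C) : T I M V →ₗ[ℝ] T I M W :=
  opT F.toPre A.σ A.B (fun a => (h.σ a).1) h.B.1

/-- the projection of a test function to a section -/
def prj {F : Pre I M ι} {p : M → V →L[ℝ] V} {C : ℕ → ℝ} (h : F.IsProj p C) (u : T I M V) :
    Sec I p := ⟨(mul p h.cb.1 u).1, (mul p h.cb.1 u).2.1, (mul p h.cb.1 u).2.2.1,
      fun x => h.idem x _⟩

theorem mul_toT {p : M → V →L[ℝ] V} (h : Sm I p) (u : Sec I p) : mul p h (toT p u) = toT p u :=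
  Subtype.ext (funext u.2.2.2)

variable [T2Space M] [BorelSpace M]

section one
variable {F : Fr I M ι} {A : Op M ι V W} {s : ι → M → W →L[ℝ] V} {B' : M → W →L[ℝ] V}
  {C : ℕ → ℝ}

theorem LT_val (h : A.Good F C) (u : T I M V) : (LT h u).1 = A.app F u.1 := opT_val _ _ _ u

theorem q_app (h : A.Good F C) (u : M → V) (x : M) : A.q x (A.app F u x) = A.app F u x := by
  simp only [Op.app, Pre.op, map_add, map_sum, h.qσ, h.qB]

theorem q_LT (h : A.Good F C) (u : T I M V) : mul A.q h.q.cb.1 (LT h u) = LT h u :=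
  Subtype.ext (funext fun x => by rw [mul_val, LT_val, q_app h])

/-- the operator on sections -/
def LS (h : A.Good F C) (u : Sec I A.p) : Sec I A.q :=
  ⟨A.app F u.1, LT_val h (toT _ u) ▸ (LT h (toT _ u)).2.1,
    LT_val h (toT _ u) ▸ (LT h (toT _ u)).2.2.1, q_app h u.1⟩

@[simp] theorem LS_val (h : A.Good F C) (u : Sec I A.p) : (LS h u).1 = A.app F u.1 := rfl

theorem toT_LS (h : A.Good F C) (u : Sec I A.p) : toT _ (LS h u) = LT h (toT _ u) :=
  Subtype.ext (LT_val h (toT _ u)).symm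

theorem ip_proj {F : Pre I M ι} {p : M → V →L[ℝ] V} (h : F.IsProj p C) (u v : T I M V) :
    (scl V F).ip (mul p h.cb.1 u) v = (scl V F).ip u (mul p h.cb.1 v) :=
  ip_mul _ _ h.symm u v

theorem Du.adjT (h : Du F A s B' C) (u : T I M V) (v : T I M W) :
    (scl W F.toPre).ip ((LT h.g ∘ₗ mul A.p h.g.p.cb.1) u) v =
      (scl V F.toPre).ip u ((LT h.g' ∘ₗ mul A.q h.g.q.cb.1) v) := by
  rw [LinearMap.comp_apply, LinearMap.comp_apply, ← q_LT h.g, ip_proj h.g.q, ← q_LT h.g',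
    ← ip_proj h.g.p, scl_ip, scl_ip, LT_val, LT_val]
  exact h.adj (prj h.g.p u) (prj h.g.q v)

/-- the first order remainder -/
def Du.R (h : Du F A s B' C) : T I M V →ₗ[ℝ] T I M V :=
  lap (scl V F.toPre) (Ds F) ∘ₗ mul A.p h.g.p.cb.1 - LT h.g' ∘ₗ LT h.g

theorem Du.lap_eq (h : Du F A s B' C) (u : Sec I A.p) :
    lap (scl V F.toPre) (Ds F) (toT _ u) = (LT h.g' ∘ₗ mul A.q h.g.q.cb.1)
      ((LT h.g ∘ₗ mul A.p h.g.p.cb.1) (toT _ u)) + h.R (toT _ u) := by
  simp only [Du.R, LinearMap.comp_apply, LinearMap.sub_apply, mul_toT, q_LT h.g]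
  abel

/-- the remainder written out -/
def Du.R' (h : Du F A s B' C) : T I M V →ₗ[ℝ] T I M V :=
  -(∑ a, (DT F.toPre a ∘ₗ mul (F.D a A.p) (F.sm_D h.g.p.cb.1 a) +
      mul (F.D a A.p) (F.sm_D h.g.p.cb.1 a) ∘ₗ DT F.toPre a +
      mul (sc V (F.dv a)) (sm_sc (F.dv_sm a)) ∘ₗ DT F.toPre a ∘ₗ mul A.p h.g.p.cb.1)) +
    (1 / 2 : ℝ) • ∑ a, ∑ b, mul (s b) (h.g'.σ b).1 ∘ₗ mul (A.σ a) (h.g.σ a).1 ∘ₗ Br F a b -
    ∑ a, ∑ b, mul (s a) (h.g'.σ a).1 ∘ₗ mul (F.D a (A.σ b)) (F.sm_D (h.g.σ b).1 a) ∘ₗ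
      DT F.toPre b -
    ∑ a, mul (s a) (h.g'.σ a).1 ∘ₗ DT F.toPre a ∘ₗ mul A.B h.g.B.1 - mul B' h.g'.B.1 ∘ₗ LT h.g

theorem Du.R_eq (h : Du F A s B' C) (u : T I M V) : h.R u = h.R' u := by
  have key := cliff_alg (fun a b => mul (s a) (h.g'.σ a).1 ∘ₗ mul (A.σ b) (h.g.σ b).1)
    (fun a b => mul (sc V (F.P a b)) (sm_sc (F.P_sm a b))) (mul A.p h.g.p.cb.1)
    (fun a b => DT F.toPre a (DT F.toPre b u)) (fun a b => Br F a b u)
    (fun a b v => Subtype.ext (funext fun x => h.cl a b x (v.1 x))) (fun a b => DT_br F a b u)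
    fun b => Subtype.ext (funext fun x => by
      rw [sum_val]
      simp only [mul_val, sc_apply, DT_val, fun a => F.P_symm a b x]
      exact sum_P_D F b _ x)
  have e1 : LT h.g' (LT h.g u) = ∑ a, mul (s a) (h.g'.σ a).1 (DT F.toPre a (LT h.g u)) +
      mul B' h.g'.B.1 (LT h.g u) := opT_apply _ _ _ _
  have e2 : ∀ a, DT F.toPre a (LT h.g u) =
      ∑ b, (mul (F.D a (A.σ b)) (F.sm_D (h.g.σ b).1 a) (DT F.toPre b u) +
        mul (A.σ b) (h.g.σ b).1 (DT F.toPre a (DT F.toPre b u))) +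
      DT F.toPre a (mul A.B h.g.B.1 u) := fun a => by
    rw [LT, opT_apply, map_add, map_sum]
    simp only [DT_mul F.toPre a (h.g.σ _).1]
  have e3 : ∀ a, DT F.toPre a (DT F.toPre a (mul A.p h.g.p.cb.1 u)) =
      DT F.toPre a (mul (F.D a A.p) (F.sm_D h.g.p.cb.1 a) u) +
      (mul (F.D a A.p) (F.sm_D h.g.p.cb.1 a) (DT F.toPre a u) +
        mul A.p h.g.p.cb.1 (DT F.toPre a (DT F.toPre a u))) := fun a => by
    rw [DT_mul F.toPre a h.g.p.cb.1 u, map_add, DT_mul F.toPre a h.g.p.cb.1]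
  simp only [LinearMap.comp_apply] at key
  simp only [Du.R, Du.R', lap, Ds, scl_D, LinearMap.comp_apply, LinearMap.sub_apply,
    LinearMap.add_apply, LinearMap.neg_apply, LinearMap.smul_apply, LinearMap.sum_apply, e1, e2, e3,
    map_add, map_sum, Finset.sum_add_distrib, Finset.sum_sub_distrib, Finset.sum_neg_distrib, key]
  abel

end one

section fam
variable {J : Type*} {F : J → Fr I M ι} {A : J → Op M ι V W} {s : J → ι → M → W →L[ℝ] V}
  {B' : J → M → W →L[ℝ] V} {C : ℕ → ℝ}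

theorem fo_LT (h : ∀ j, (A j).Good (F j) C) : FO (fun j => (F j).toPre) fun j => LT (h j) :=
  FO.op (σ := fun j => (A j).σ) (fun a => ⟨C, fun j => (h j).σ a⟩) ⟨C, fun j => (h j).B⟩

variable [SecondCountableTopology M]

theorem fo_R (h : ∀ j, Du (F j) (A j) (s j) (B' j) C) :
    FO (fun j => (F j).toPre) fun j => (h j).R := by
  have ht := fun j => (h j).tame
  have hp : UB (fun j => (F j).toPre) fun j => (A j).p := ⟨C, fun j => (h j).g.p.cb⟩
  have hσ : ∀ a, UB (fun j => (F j).toPre) fun j => (A j).σ a := fun a => ⟨C, fun j => (h j).g.σ a⟩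
  have hs : ∀ a, UB (fun j => (F j).toPre) fun j => s j a := fun a => ⟨C, fun j => (h j).g'.σ a⟩
  have hB : UB (fun j => (F j).toPre) fun j => (A j).B := ⟨C, fun j => (h j).g.B⟩
  have hB' : UB (fun j => (F j).toPre) B' := ⟨C, fun j => (h j).g'.B⟩
  refine FO.congr (L := fun j => (h j).R') ?_ fun j u => (h j).R_eq u
  exact ((((FO.sum fun a => (((FO.D a).rmul (hp.D a)).add ((FO.D a).lmul (hp.D a))).add
    (((FO.D a).rmul hp).lmul (UB.sc ⟨C, fun j => (ht j).dv a⟩))).neg.add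
    ((FO.sum fun a => FO.sum fun b => ((fo_Br ht a b).lmul (hσ a)).lmul (hs b)).smul _)).sub
    (FO.sum fun a => FO.sum fun b => ((FO.D b).lmul ((hσ b).D a)).lmul (hs a))).sub
    (FO.sum fun a => ((FO.D a).rmul hB).lmul (hs a))).sub
    ((fo_LT fun j => (h j).g).lmul hB')

/-- **Gårding and resolvent estimates for smooth sections**, uniform in the family. -/
theorem est_fam (h : ∀ j, Du (F j) (A j) (s j) (B' j) C) :
    ∃ K : ℕ → ℝ, (∀ k, 0 ≤ K k) ∧ ∀ j k (u : Sec I (A j).p),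
      (F j).nrm (k + 1) u.1 ≤ K k * ((F j).nrm k ((A j).app (F j) u.1) + (F j).nrm 0 u.1) ∧
      (F j).nrm (k + 2) u.1 ≤
        K k * (F j).nrm k (u.1 + (dual (A j) (s j) (B' j)).app (F j) ((A j).app (F j) u.1)) := by
  obtain ⟨t, ht, hT⟩ := UO.unif fun c => uo_Tc (V := V) (fun j => (h j).tame) c
  obtain ⟨r, hR⟩ := (fo_R h).uo
  obtain ⟨l, hl⟩ := ((fo_LT fun j => (h j).g').rmul ⟨C, fun j => (h j).g.q.cb⟩).uo
  refine ⟨fun k => |K1 (Fintype.card ι) t r l k| +
    |2 * K2 (Fintype.card ι) t (fun k => r k + 1) k|, fun k => by positivity,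
    fun j k u => ⟨?_, ?_⟩⟩
  · have h1 := est_first (ip_D (F j)) ht (hT j) (hR j) (h j).adjT (hl j) ((h j).lap_eq u) k
    simp only [scl_N, LinearMap.comp_apply, mul_toT, LT_val, toT_val] at h1
    refine h1.trans (mul_le_mul_of_nonneg_right ?_ (add_nonneg (nrm_nonneg _ _) (nrm_nonneg _ _)))
    exact (le_abs_self _).trans (le_add_of_nonneg_right (abs_nonneg _))
  · have h1 := est_res (ip_D (F j)) ht (hT j) (hR j) (h j).adjT ((h j).lap_eq u) k
    simp only [scl_N, LinearMap.comp_apply, mul_toT, q_LT (h j).g, Submodule.coe_add, LT_val,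
      toT_val] at h1
    refine h1.trans (mul_le_mul_of_nonneg_right ?_ (nrm_nonneg _ _))
    exact (le_abs_self _).trans (le_add_of_nonneg_left (abs_nonneg _))

end fam

/-! ### the formal adjoint of `An.Op` -/

section mono
variable {F : Fr I M ι} {C C' : ℕ → ℝ}

theorem Tame_mono (h : F.Tame C) (hC : ∀ k, C k ≤ C' k) : F.Tame C' where
  P a b := CBs_mono (h.P a b) hC
  c a b l := CBs_mono (h.c a b l) hC
  dv a := CBs_mono (h.dv a) hC
  l4 f hf hc := (h.l4 f hf hc).trans (mul_le_mul_of_nonneg_right (hC 0) (F.ip_nonneg 1 f))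
  sup f hf hc x := (h.sup f hf hc x).trans (mul_le_mul_of_nonneg_right (hC 0) (F.ip_nonneg 4 f))
  exh K hK := let ⟨χ, h1, h2⟩ := h.exh K hK; ⟨χ, CBs_mono h1 hC, h2⟩

theorem IsProj_mono {F : Pre I M ι} {p : M → V →L[ℝ] V} (h : F.IsProj p C) (hC : ∀ k, C k ≤ C' k) :
    F.IsProj p C' := ⟨CBs_mono h.cb hC, h.idem, h.symm⟩

theorem Good_mono {A : Op M ι V W} (h : A.Good F C) (hC : ∀ k, C k ≤ C' k) : A.Good F C' :=
  ⟨IsProj_mono h.p hC, IsProj_mono h.q hC, fun a => CBs_mono (h.σ a) hC, CBs_mono h.B hC, h.σp,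
    h.qσ, h.qB, h.Pσ⟩

end mono

variable [FiniteDimensional ℝ V] [FiniteDimensional ℝ W]

theorem inner_tr (L : V →L[ℝ] W) (v : V) (w : W) : ⟪v, Op.tr L w⟫_ℝ = ⟪L v, w⟫_ℝ :=
  LinearMap.adjoint_inner_right (L : V →ₗ[ℝ] W) v w

theorem tr_inner (L : V →L[ℝ] W) (v : V) (w : W) : ⟪Op.tr L w, v⟫_ℝ = ⟪w, L v⟫_ℝ :=
  LinearMap.adjoint_inner_left (L : V →ₗ[ℝ] W) v w

variable (V W) in
/-- the transpose as a continuous linear map -/
def trL : (V →L[ℝ] W) →L[ℝ] W →L[ℝ] V :=
  LinearMap.toContinuousLinearMap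
    { toFun := Op.tr
      map_add' := fun L L' => ContinuousLinearMap.ext fun w => ext_inner_left ℝ fun v => by
        simp only [inner_tr, _root_.add_apply, inner_add_left, inner_add_right]
      map_smul' := fun r L => ContinuousLinearMap.ext fun w => ext_inner_left ℝ fun v => by
        simp only [inner_tr, _root_.smul_apply, real_inner_smul_left, real_inner_smul_right,
          RingHom.id_apply] }

theorem trL_apply (L : V →L[ℝ] W) : trL V W L = Op.tr L := rfl

theorem good_adj_fam {J : Type*} {F : J → Fr I M ι} {A : J → Op M ι V W} {C : ℕ → ℝ}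
    (hF : ∀ j, (F j).Tame C) (h : ∀ j, (A j).Good (F j) C) :
    ∃ C' : ℕ → ℝ, (∀ k, C k ≤ C' k) ∧ ∀ j, ((A j).adj (F j)).Good (F j) C' := by
  have hσ : ∀ a, UB (fun j => (F j).toPre) fun j x => Op.tr ((A j).σ a x) := fun a =>
    UB.clm (trL V W) ⟨C, fun j => (h j).σ a⟩
  have hB : UB (fun j => (F j).toPre) fun j x => Op.tr ((A j).B x) :=
    UB.clm (trL V W) ⟨C, fun j => (h j).B⟩
  obtain ⟨C1, h1⟩ := UB.unif fun a => (hσ a).neg
  obtain ⟨C2, h2⟩ : UB (fun j => (F j).toPre) fun j => ((A j).adj (F j)).B :=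
    UB.comp ⟨C, fun j => (h j).p.cb⟩ (hB.sub (UB.sum fun a => ((hσ a).D a).add
      (UB.smul ⟨C, fun j => (hF j).dv a⟩ (hσ a))))
  refine ⟨fun k => max (C k) (max (C1 k) (C2 k)), fun k => le_max_left _ _, fun j =>
    ⟨IsProj_mono (h j).q fun k => le_max_left _ _, IsProj_mono (h j).p fun k => le_max_left _ _,
      fun a => CBs_mono (h1 j a) fun k => (le_max_left _ _).trans (le_max_right _ _),
      CBs_mono (h2 j) fun k => (le_max_right _ _).trans (le_max_right _ _),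
      fun a x w => ?_, fun a x w => ?_, fun x w => (h j).p.idem x _, fun a x => ?_⟩⟩
  · refine ext_inner_left ℝ fun v => ?_
    simp only [Op.adj, _root_.neg_apply, inner_neg_right, inner_tr, ← (h j).q.symm, (h j).qσ]
  · refine ext_inner_left ℝ fun v => ?_
    simp only [Op.adj, _root_.neg_apply, inner_neg_right, inner_tr, ← (h j).p.symm, (h j).σp]
  · simp only [Op.adj, ← trL_apply]
    conv_rhs => rw [← (h j).Pσ a x]
    simp only [map_sum, map_smul, smul_neg, Finset.sum_neg_distrib]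

theorem adj_ip {F : Fr I M ι} {A : Op M ι V W} {C : ℕ → ℝ} (h : A.Good F C) (u : Sec I A.p)
    (w : T I M W) : F.ip 0 (A.app F u.1) w.1 = F.ip 0 u.1 ((A.adj F).app F w.1) := by
  have hσ : ∀ a, Sm I fun x => Op.tr (A.σ a x) := fun a => (trL V W).contMDiff.comp (h.σ a).1
  have hB : Sm I fun x => Op.tr (A.B x) := (trL V W).contMDiff.comp h.B.1
  have e : (scl W F.toPre).ip (LT h (toT _ u)) w = (scl V F.toPre).ip (toT _ u)
      (∑ a, Ds F a (mul _ (hσ a) w) + mul _ hB w) := by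
    rw [LT, opT_apply, map_add, map_sum, LinearMap.add_apply, LinearMap.sum_apply, map_add, map_sum,
      ip_mul h.B.1 hB fun x v w => (inner_tr _ v w).symm]
    congr 1
    refine Finset.sum_congr rfl fun a _ => ?_
    rw [ip_mul (h.σ a).1 (hσ a) fun x v w => (inner_tr _ v w).symm, ← ip_D]
    rfl
  rw [scl_ip, scl_ip, LT_val] at e
  refine e.trans (integral_congr_ae (.of_forall fun x => ?_))
  have e2 : ∀ a, F.D a (mul _ (hσ a) w).1 x = _ := fun a => D_app F.toPre a (hσ a) w.2.1 x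
  have e3 : ∀ z, ⟪u.1 x, A.p x z⟫_ℝ = ⟪u.1 x, z⟫_ℝ := fun z => by rw [← h.p.symm, u.2.2.2 x]
  simp only [Submodule.coe_add, Pi.add_apply, sum_val, Ds_val, e2, mul_val, toT_val, Op.app,
    Op.adj, Pre.op, inner_add_right, ContinuousLinearMap.comp_apply, e3, _root_.sub_apply,
    _root_.sum_apply, _root_.add_apply, _root_.smul_apply, _root_.neg_apply, inner_sub_right,
    inner_sum, inner_neg_right, Finset.sum_add_distrib, Finset.sum_sub_distrib,
    Finset.sum_neg_distrib]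
  ring

theorem du_fam {J : Type*} {F : J → Fr I M ι} {A : J → Op M ι V W} {C : ℕ → ℝ}
    (hF : ∀ j, (F j).Tame C) (h : ∀ j, (A j).Good (F j) C) :
    ∃ C' : ℕ → ℝ, ∀ j,
      ((A j).CliffL (F j) → Du (F j) (A j) ((A j).adj (F j)).σ ((A j).adj (F j)).B C') ∧
      (((A j).adj (F j)).CliffL (F j) → Du (F j) ((A j).adj (F j)) (A j).σ (A j).B C') := by
  obtain ⟨C', hC, h'⟩ := good_adj_fam hF h
  refine ⟨C', fun j => ⟨fun hc => ⟨Tame_mono (hF j) hC, Good_mono (h j) hC, h' j,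
    fun u w => adj_ip (h j) u (toT _ w), fun a b x v => ext_inner_right ℝ fun w => ?_⟩,
    fun hc => ⟨Tame_mono (hF j) hC, h' j, Good_mono (h j) hC, fun w u => ?_,
      fun a b x v => ext_inner_right ℝ fun w => ?_⟩⟩⟩
  · have := hc a b x v w
    simp only [Op.adj, _root_.neg_apply, inner_add_left, inner_neg_left, tr_inner, map_smul,
      real_inner_smul_left]
    linarith
  · rw [(F j).ip_comm, (F j).ip_comm 0 w.1]
    exact (adj_ip (h j) u (toT _ w)).symm
  · have := hc a b x v w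
    simp only [Op.adj, _root_.neg_apply, inner_neg_left, inner_neg_right, neg_neg, inner_tr] at this
    simp only [Op.adj, _root_.neg_apply, inner_add_left, inner_neg_left, map_smul, map_neg,
      real_inner_smul_left]
    linarith

end Crest.Agent.X212.Ell97
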