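import Mathlib

/-! Abstract elliptic estimates on a Sobolev scale generated by finitely many derivations.
All constants are explicit functions of the number of derivations and of the given bounds, so the
estimates are uniform in families (long necks). -/

set_option autoImplicit false
open Finset

noncomputable section
namespace Crest.Agent.X212.Ell97

/-- A Sobolev scale: `ip` is the `L²` product, `N k` the `L²_k` seminorm. -/
structure Scl (ι S : Type*) [Fintype ι] [AddCommGroup S] [Module ℝ S] where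
  ip : S →ₗ[ℝ] S →ₗ[ℝ] ℝ
  D : ι → S →ₗ[ℝ] S
  N : ℕ → Seminorm ℝ S
  symm : ∀ u v, ip u v = ip v u
  N0 : ∀ u, N 0 u ^ 2 = ip u u
  Ns : ∀ k u, N (k + 1) u ^ 2 = N 0 u ^ 2 + ∑ a, N k (D a u) ^ 2

variable {ι S S' S'' : Type*} [Fintype ι] [AddCommGroup S] [Module ℝ S] [AddCommGroup S']
  [Module ℝ S'] [AddCommGroup S''] [Module ℝ S'']

theorem le_of_sq_le' {x y : ℝ} (hy : 0 ≤ y) (h : x ^ 2 ≤ y ^ 2) : x ≤ y :=
  (abs_le_of_sq_le_sq' h hy).2

theorem absorb {x a b t : ℝ} (ha : 0 ≤ a) (hb : 0 ≤ b) (ht : 0 ≤ t)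
    (h : x ^ 2 ≤ a ^ 2 + b ^ 2 + t * x * a) : x ≤ (1 + t) * (a + b) := by
  by_contra hc
  push Not at hc
  have h1 : a + b ≤ (1 + t) * (a + b) := by nlinarith [mul_nonneg ht (add_nonneg ha hb)]
  have hx : 0 < x := by linarith [add_nonneg ha hb]
  have h2 : (1 + t) * (a + b) * x < x * x := mul_lt_mul_of_pos_right hc hx
  have h3 : (a + b) * (a + b) ≤ (a + b) * x :=
    mul_le_mul_of_nonneg_left (by linarith) (add_nonneg ha hb)
  nlinarith [mul_nonneg ha hb, mul_nonneg (mul_nonneg ht hb) hx.le]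

namespace Scl
variable (A : Scl ι S)

theorem nn (k : ℕ) (u : S) : 0 ≤ A.N k u := apply_nonneg _ _

theorem cs (u v : S) : A.ip u v ≤ A.N 0 u * A.N 0 v := by
  have h : ∀ t : ℝ, 0 ≤ A.ip v v * (t * t) + (2 * A.ip u v) * t + A.ip u u := by
    intro t
    have h1 := A.N0 (u + t • v)
    have h2 : A.ip (u + t • v) (u + t • v) =
        A.ip v v * (t * t) + (2 * A.ip u v) * t + A.ip u u := by
      simp only [map_add, map_smul, LinearMap.add_apply, LinearMap.smul_apply, smul_eq_mul]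
      rw [A.symm v u]; ring
    rw [← h2, ← h1]; positivity
  have h3 := discrim_le_zero h
  rw [discrim, ← A.N0, ← A.N0] at h3
  exact le_of_sq_le' (mul_nonneg (A.nn _ _) (A.nn _ _)) (by nlinarith)

theorem N_D (k : ℕ) (a : ι) (u : S) : A.N k (A.D a u) ≤ A.N (k + 1) u := by
  refine le_of_sq_le' (A.nn _ _) ?_
  rw [A.Ns]
  have := single_le_sum (f := fun a => A.N k (A.D a u) ^ 2) (fun _ _ => sq_nonneg _) (mem_univ a)
  nlinarith [sq_nonneg (A.N 0 u)]

theorem N_succ (k : ℕ) : ∀ u : S, A.N k u ≤ A.N (k + 1) u := by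
  induction k with
  | zero =>
    intro u
    refine le_of_sq_le' (A.nn _ _) ?_
    rw [A.Ns 0]
    have : 0 ≤ ∑ a, A.N 0 (A.D a u) ^ 2 := sum_nonneg fun _ _ => sq_nonneg _
    linarith
  | succ k ih =>
    intro u
    refine le_of_sq_le' (A.nn _ _) ?_
    rw [A.Ns (k + 1), A.Ns k]
    have : ∑ a, A.N k (A.D a u) ^ 2 ≤ ∑ a, A.N (k + 1) (A.D a u) ^ 2 :=
      sum_le_sum fun a _ => pow_le_pow_left₀ (A.nn _ _) (ih _) 2
    linarith

theorem N_mono {k l : ℕ} (h : k ≤ l) (u : S) : A.N k u ≤ A.N l u := by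
  induction h with
  | refl => exact le_rfl
  | step _ ih => exact ih.trans (A.N_succ _ u)

theorem N_succ_le (k : ℕ) (u : S) : A.N (k + 1) u ≤ A.N 0 u + ∑ a, A.N k (A.D a u) := by
  have h0 : 0 ≤ ∑ a, A.N k (A.D a u) := sum_nonneg fun _ _ => A.nn _ _
  refine le_of_sq_le' (add_nonneg (A.nn _ _) h0) ?_
  rw [A.Ns]
  have h1 : ∑ a, A.N k (A.D a u) ^ 2 ≤ (∑ a, A.N k (A.D a u)) ^ 2 := by
    rw [sq (∑ a, _), sum_mul]
    refine sum_le_sum fun a _ => ?_
    rw [sq]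
    exact mul_le_mul_of_nonneg_left
      (single_le_sum (f := fun a => A.N k (A.D a u)) (fun _ _ => A.nn _ _) (mem_univ a)) (A.nn _ _)
  nlinarith [mul_nonneg (A.nn 0 u) h0]

end Scl

/-- `T` has order at most `m`, with bounds `c`. -/
structure Ord (A : Scl ι S) (A' : Scl ι S') (m : ℕ) (T : S →ₗ[ℝ] S') (c : ℕ → ℝ) : Prop where
  nn : ∀ k, 0 ≤ c k
  le : ∀ k u, A'.N k (T u) ≤ c k * A.N (k + m) u

namespace Ord
variable {A : Scl ι S} {A' : Scl ι S'} {A'' : Scl ι S''} {m m' : ℕ} {T T' : S →ₗ[ℝ] S'}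
  {c c' : ℕ → ℝ}

theorem mono (h : Ord A A' m T c) (hc : ∀ k, c k ≤ c' k) : Ord A A' m T c' :=
  ⟨fun k => (h.nn k).trans (hc k), fun k u =>
    (h.le k u).trans (mul_le_mul_of_nonneg_right (hc k) (A.nn _ _))⟩

theorem up (h : Ord A A' m T c) (hm : m ≤ m') : Ord A A' m' T c :=
  ⟨h.nn, fun k u => (h.le k u).trans
    (mul_le_mul_of_nonneg_left (A.N_mono (by omega) u) (h.nn k))⟩

theorem congr (h : Ord A A' m T c) (e : ∀ u, T' u = T u) : Ord A A' m T' c :=
  ⟨h.nn, fun k u => by rw [e]; exact h.le k u⟩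

theorem id (A : Scl ι S) : Ord A A 0 LinearMap.id fun _ => 1 :=
  ⟨fun _ => zero_le_one, fun k u => by simp⟩

theorem D (A : Scl ι S) (a : ι) : Ord A A 1 (A.D a) fun _ => 1 :=
  ⟨fun _ => zero_le_one, fun k u => by simpa using A.N_D k a u⟩

theorem add (h : Ord A A' m T c) (h' : Ord A A' m T' c') :
    Ord A A' m (T + T') fun k => c k + c' k :=
  ⟨fun k => add_nonneg (h.nn k) (h'.nn k), fun k u => by
    refine (map_add_le_add (A'.N k) _ _).trans ?_
    have := h.le k u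
    have := h'.le k u
    linarith⟩

theorem neg (h : Ord A A' m T c) : Ord A A' m (-T) c :=
  ⟨h.nn, fun k u => by rw [LinearMap.neg_apply, map_neg_eq_map]; exact h.le k u⟩

theorem sub (h : Ord A A' m T c) (h' : Ord A A' m T' c') :
    Ord A A' m (T - T') fun k => c k + c' k := by
  rw [sub_eq_add_neg]; exact h.add h'.neg

theorem smul (h : Ord A A' m T c) (r : ℝ) : Ord A A' m (r • T) fun k => |r| * c k :=
  ⟨fun k => mul_nonneg (abs_nonneg r) (h.nn k), fun k u => by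
    rw [LinearMap.smul_apply, map_smul_eq_mul, Real.norm_eq_abs, mul_assoc]
    exact mul_le_mul_of_nonneg_left (h.le k u) (abs_nonneg r)⟩

theorem comp {U : S' →ₗ[ℝ] S''} (h' : Ord A' A'' m' U c') (h : Ord A A' m T c) :
    Ord A A'' (m' + m) (U ∘ₗ T) fun k => c' k * c (k + m') :=
  ⟨fun k => mul_nonneg (h'.nn k) (h.nn _), fun k u => by
    refine (h'.le k _).trans ?_
    rw [mul_assoc, ← add_assoc]
    exact mul_le_mul_of_nonneg_left (h.le _ u) (h'.nn k)⟩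

theorem sum {κ : Type*} [Fintype κ] {T : κ → S →ₗ[ℝ] S'} (hc : ∀ k, 0 ≤ c k)
    (h : ∀ i, Ord A A' m (T i) c) : Ord A A' m (∑ i, T i) fun k => Fintype.card κ * c k :=
  ⟨fun k => mul_nonneg (Nat.cast_nonneg _) (hc k), fun k u => by
    rw [LinearMap.sum_apply]
    refine (Finset.le_sum_of_subadditive (A'.N k) (map_zero _).le (map_add_le_add _) _ _).trans ?_
    refine (sum_le_sum fun i _ => (h i).le k u).trans ?_
    rw [sum_const, card_univ, nsmul_eq_mul, mul_assoc]⟩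

end Ord

/-- The rough Laplacian built from the formal adjoints `Ds` of the derivations. -/
def lap (A : Scl ι S) (Ds : ι → S →ₗ[ℝ] S) : S →ₗ[ℝ] S := ∑ a, Ds a ∘ₗ A.D a

variable {A : Scl ι S} {A' : Scl ι S'} {Ds : ι → S →ₗ[ℝ] S}

theorem ip_lap (hD : ∀ a u v, A.ip (A.D a u) v = A.ip u (Ds a v)) (u v : S) :
    A.ip (lap A Ds u) v = ∑ a, A.ip (A.D a u) (A.D a v) := by
  rw [lap, LinearMap.sum_apply, map_sum, LinearMap.sum_apply]
  refine sum_congr rfl fun a _ => ?_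
  rw [A.symm, LinearMap.comp_apply, ← hD, A.symm]

theorem N1_sq (hD : ∀ a u v, A.ip (A.D a u) v = A.ip u (Ds a v)) (u : S) :
    A.N 1 u ^ 2 = A.N 0 u ^ 2 + A.ip (lap A Ds u) u := by
  rw [A.Ns 0, ip_lap hD]
  simp only [A.N0]

/-- constants of the estimate for the rough Laplacian -/
def KL (n : ℕ) (t : ℕ → ℝ) : ℕ → ℝ
  | 0 => 1 + n * t 0
  | k + 1 => 1 + n * KL n t k * (1 + t k)

theorem KL_nn (n : ℕ) {t : ℕ → ℝ} (ht : ∀ k, 0 ≤ t k) : ∀ k, 0 ≤ KL n t k
  | 0 => by have := ht 0; unfold KL; positivity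
  | k + 1 => by have := ht k; have := KL_nn n ht k; unfold KL; positivity

/-- **Estimate for the rough Laplacian.** -/
theorem lap_est (hD : ∀ a u v, A.ip (A.D a u) v = A.ip u (Ds a v)) {t : ℕ → ℝ}
    (ht : ∀ k, 0 ≤ t k) (hT : ∀ c, Ord A A 2 (lap A Ds ∘ₗ A.D c - A.D c ∘ₗ lap A Ds) t) (k : ℕ) :
    ∀ u, A.N (k + 2) u ≤ KL (Fintype.card ι) t k * (A.N k (lap A Ds u) + A.N (k + 1) u) := by
  have e : ∀ c u, lap A Ds (A.D c u) =
      A.D c (lap A Ds u) + (lap A Ds ∘ₗ A.D c - A.D c ∘ₗ lap A Ds) u := by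
    intro c u; simp
  induction k with
  | zero =>
    intro u
    have h1 : ∑ c, A.N 1 (A.D c u) ^ 2 ≤ ∑ c, (A.N 0 (A.D c u) ^ 2 +
        A.ip (A.D c (lap A Ds u)) (A.D c u) + t 0 * A.N 2 u * A.N 1 u) := by
      refine sum_le_sum fun c _ => ?_
      rw [N1_sq hD, e, map_add, LinearMap.add_apply, add_assoc]
      have h2 := A.cs ((lap A Ds ∘ₗ A.D c - A.D c ∘ₗ lap A Ds) u) (A.D c u)
      have h3 := mul_le_mul ((hT c).le 0 u) (A.N_D 0 c u) (A.nn _ _)
        (mul_nonneg (ht 0) (A.nn _ _))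
      simp only [zero_add] at h3
      linarith
    have h4 : ∑ c, A.ip (A.D c (lap A Ds u)) (A.D c u) = A.N 0 (lap A Ds u) ^ 2 := by
      rw [A.N0, ip_lap hD]
      exact sum_congr rfl fun c _ => A.symm _ _
    rw [sum_add_distrib, sum_add_distrib, h4, sum_const, card_univ, nsmul_eq_mul] at h1
    have h5 := A.Ns 1 u
    have h6 := A.Ns 0 u
    have h7 := absorb (x := A.N 2 u) (a := A.N 1 u) (b := A.N 0 (lap A Ds u))
      (t := Fintype.card ι * t 0) (A.nn _ _) (A.nn _ _) (mul_nonneg (Nat.cast_nonneg _) (ht 0))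
      (by simp only [zero_add] at h6; linarith)
    simpa [KL, add_comm] using h7
  | succ k ih =>
    intro u
    refine (A.N_succ_le (k + 2) u).trans ?_
    have hK := KL_nn (Fintype.card ι) ht k
    have h1 : ∑ c, A.N (k + 2) (A.D c u) ≤ ∑ _c : ι, KL (Fintype.card ι) t k *
        (A.N (k + 1) (lap A Ds u) + (1 + t k) * A.N (k + 2) u) := by
      refine sum_le_sum fun c _ => (ih _).trans (mul_le_mul_of_nonneg_left ?_ hK)
      rw [e]
      have h2 := map_add_le_add (A.N k) (A.D c (lap A Ds u))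
        ((lap A Ds ∘ₗ A.D c - A.D c ∘ₗ lap A Ds) u)
      have h3 := (hT c).le k u
      have h4 := A.N_D k c (lap A Ds u)
      have h5 := A.N_D (k + 1) c u
      linarith
    rw [sum_const, card_univ, nsmul_eq_mul] at h1
    have h6 := A.N_mono (show 0 ≤ k + 2 by omega) u
    have h7 : 0 ≤ (Fintype.card ι : ℝ) * KL (Fintype.card ι) t k := by positivity
    have h8 := A.nn (k + 1) (lap A Ds u)
    have h9 := mul_nonneg (mul_nonneg h7 (ht k)) h8
    show _ ≤ (1 + _ * KL _ t k * (1 + t k)) * (_ + A.N (k + 2) u)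
    nlinarith

/-- constants of the second order estimate -/
def K2 (n : ℕ) (t r : ℕ → ℝ) : ℕ → ℝ
  | 0 => KL n t 0 * (1 + (1 + r 0) * (1 + r 0))
  | k + 1 => KL n t (k + 1) * (1 + (1 + r (k + 1)) * K2 n t r k)

theorem K2_nn (n : ℕ) {t r : ℕ → ℝ} (ht : ∀ k, 0 ≤ t k) (hr : ∀ k, 0 ≤ r k) :
    ∀ k, 0 ≤ K2 n t r k
  | 0 => by have := hr 0; have := KL_nn n ht 0; unfold K2; positivity
  | k + 1 => by
    have := hr (k + 1); have := KL_nn n ht (k + 1); have := K2_nn n ht hr k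
    unfold K2; positivity

/-- `L²₁` estimate: `lap u = q + R u`. -/
theorem est_one (hD : ∀ a u v, A.ip (A.D a u) v = A.ip u (Ds a v)) {R : S →ₗ[ℝ] S} {r : ℕ → ℝ}
    (hR : Ord A A 1 R r) {u q : S} (h : lap A Ds u = q + R u) :
    A.N 1 u ≤ (1 + r 0) * (A.N 0 q + A.N 0 u) := by
  have h1 := N1_sq hD u
  rw [h, map_add, LinearMap.add_apply] at h1
  have h2 := A.cs q u
  have h3 := A.cs (R u) u
  have h4 := mul_le_mul_of_nonneg_right (hR.le 0 u) (A.nn 0 u)
  simp only [zero_add] at h4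
  have h5 := absorb (x := A.N 1 u) (a := A.N 0 q + A.N 0 u) (b := 0) (t := r 0)
    (add_nonneg (A.nn _ _) (A.nn _ _)) le_rfl (hR.nn 0) (by
      nlinarith [mul_nonneg (A.nn 0 q) (A.nn 0 u), sq_nonneg (A.N 0 q),
        mul_nonneg (mul_nonneg (hR.nn 0) (A.nn 1 u)) (A.nn 0 q)])
  simpa using h5

/-- **Second order estimate**: if `lap u = q + R u` with `R` of order one. -/
theorem est_two (hD : ∀ a u v, A.ip (A.D a u) v = A.ip u (Ds a v)) {t : ℕ → ℝ}
    (ht : ∀ k, 0 ≤ t k) (hT : ∀ c, Ord A A 2 (lap A Ds ∘ₗ A.D c - A.D c ∘ₗ lap A Ds) t)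
    {R : S →ₗ[ℝ] S} {r : ℕ → ℝ} (hR : Ord A A 1 R r) {u q : S} (h : lap A Ds u = q + R u)
    (k : ℕ) : A.N (k + 2) u ≤ K2 (Fintype.card ι) t r k * (A.N k q + A.N 0 u) := by
  have key : ∀ k, A.N (k + 2) u ≤
      KL (Fintype.card ι) t k * (A.N k q + (1 + r k) * A.N (k + 1) u) := by
    intro k
    refine (lap_est hD ht hT k u).trans (mul_le_mul_of_nonneg_left ?_ (KL_nn _ ht k))
    rw [h]
    have := map_add_le_add (A.N k) q (R u)
    have := hR.le k u
    linarith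
  induction k with
  | zero =>
    refine (key 0).trans ?_
    rw [K2, mul_assoc]
    refine mul_le_mul_of_nonneg_left ?_ (KL_nn _ ht 0)
    have h1 := mul_le_mul_of_nonneg_left (est_one hD hR h) (add_nonneg zero_le_one (hR.nn 0))
    have := A.nn 0 u
    simp only [zero_add]
    nlinarith
  | succ k ih =>
    refine (key (k + 1)).trans ?_
    rw [K2, mul_assoc]
    refine mul_le_mul_of_nonneg_left ?_ (KL_nn _ ht _)
    have h0 := add_nonneg zero_le_one (hR.nn (k + 1))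
    have h1 := mul_le_mul_of_nonneg_left ih h0
    have h2 := mul_le_mul_of_nonneg_left (A.N_succ k q)
      (mul_nonneg h0 (K2_nn (Fintype.card ι) ht hR.nn k))
    have := A.nn 0 u
    nlinarith

/-- constants of the first order estimate -/
def K1 (n : ℕ) (t r l : ℕ → ℝ) : ℕ → ℝ
  | 0 => 1 + r 0
  | k + 1 => K2 n t r k * (1 + l k)

theorem K1_nn (n : ℕ) {t r l : ℕ → ℝ} (ht : ∀ k, 0 ≤ t k) (hr : ∀ k, 0 ≤ r k)
    (hl : ∀ k, 0 ≤ l k) : ∀ k, 0 ≤ K1 n t r l k
  | 0 => by have := hr 0; unfold K1; positivity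
  | k + 1 => by have := hl k; have := K2_nn n ht hr k; unfold K1; positivity

/-- **First order estimate (Gårding)**: `lap u = L* L u + R u`. -/
theorem est_first (hD : ∀ a u v, A.ip (A.D a u) v = A.ip u (Ds a v)) {t : ℕ → ℝ}
    (ht : ∀ k, 0 ≤ t k) (hT : ∀ c, Ord A A 2 (lap A Ds ∘ₗ A.D c - A.D c ∘ₗ lap A Ds) t)
    {R : S →ₗ[ℝ] S} {r : ℕ → ℝ} (hR : Ord A A 1 R r) {L : S →ₗ[ℝ] S'} {Ls : S' →ₗ[ℝ] S}
    (hL : ∀ u v, A'.ip (L u) v = A.ip u (Ls v)) {l : ℕ → ℝ} (hl : Ord A' A 1 Ls l) {u : S}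
    (h : lap A Ds u = Ls (L u) + R u) (k : ℕ) :
    A.N (k + 1) u ≤ K1 (Fintype.card ι) t r l k * (A'.N k (L u) + A.N 0 u) := by
  cases k with
  | zero =>
    have h1 := N1_sq hD u
    rw [h, map_add, LinearMap.add_apply, A.symm (Ls (L u)), ← hL, ← A'.N0] at h1
    have h3 := A.cs (R u) u
    have h4 := mul_le_mul_of_nonneg_right (hR.le 0 u) (A.nn 0 u)
    simp only [zero_add] at h4
    have h5 := absorb (x := A.N 1 u) (a := A.N 0 u) (b := A'.N 0 (L u)) (t := r 0)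
      (A.nn _ _) (A'.nn _ _) (hR.nn 0) (by linarith)
    simpa [K1, add_comm] using h5
  | succ k =>
    refine (est_two hD ht hT hR h k).trans ?_
    rw [K1, mul_assoc]
    refine mul_le_mul_of_nonneg_left ?_ (K2_nn _ ht hR.nn k)
    have := hl.le k (L u)
    have := A'.nn (k + 1) (L u)
    have := mul_nonneg (hl.nn k) (A.nn 0 u)
    nlinarith

/-- **Resolvent estimate**: no `L²` term for `1 + L* L`. -/
theorem est_res (hD : ∀ a u v, A.ip (A.D a u) v = A.ip u (Ds a v)) {t : ℕ → ℝ}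
    (ht : ∀ k, 0 ≤ t k) (hT : ∀ c, Ord A A 2 (lap A Ds ∘ₗ A.D c - A.D c ∘ₗ lap A Ds) t)
    {R : S →ₗ[ℝ] S} {r : ℕ → ℝ} (hR : Ord A A 1 R r) {L : S →ₗ[ℝ] S'} {Ls : S' →ₗ[ℝ] S}
    (hL : ∀ u v, A'.ip (L u) v = A.ip u (Ls v)) {u : S}
    (h : lap A Ds u = Ls (L u) + R u) (k : ℕ) :
    A.N (k + 2) u ≤ 2 * K2 (Fintype.card ι) t (fun k => r k + 1) k * A.N k (u + Ls (L u)) := by
  have hR' : Ord A A 1 (R - LinearMap.id) fun k => r k + 1 := hR.sub ((Ord.id A).up zero_le_one)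
  have h1 := est_two hD ht hT hR' (u := u) (q := u + Ls (L u)) (by
    rw [h, LinearMap.sub_apply, LinearMap.id_apply]; abel) k
  have h2 : A.N 0 u ≤ A.N 0 (u + Ls (L u)) := by
    have h3 := A.cs (u + Ls (L u)) u
    rw [map_add, LinearMap.add_apply, A.symm (Ls (L u)), ← hL, ← A'.N0, ← A.N0] at h3
    by_contra hc
    push Not at hc
    have h0 := A.nn 0 (u + Ls (L u))
    nlinarith [sq_nonneg (A'.N 0 (L u))]
  have h4 := A.N_mono (Nat.zero_le k) (u + Ls (L u))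
  have h5 := K2_nn (Fintype.card ι) ht hR'.nn k
  nlinarith

end Crest.Agent.X212.Ell97
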