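import Crest.Agent.X212.Sob92.Bas
import Crest.Agent.X212.Ell97.Abs

/-! The Sobolev scale of test functions of a frame; multiplication operators, integration by parts,
brackets. -/

set_option autoImplicit false
set_option linter.unusedSectionVars false
noncomputable section
open scoped Manifold ContDiff Topology InnerProductSpace
open MeasureTheory Set Function Filter

namespace Crest.Agent.X212.Ell97
open An Sob92

variable {E : Type} [NormedAddCommGroup E] [NormedSpace ℝ E] [FiniteDimensional ℝ E]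
  [MeasurableSpace E] [BorelSpace E]
  {HM : Type} [TopologicalSpace HM] {I : ModelWithCorners ℝ E HM}
  {M : Type} [TopologicalSpace M] [ChartedSpace HM M] [IsManifold I ∞ M]
  [MeasurableSpace M] {ι : Type} [Fintype ι]
  {N : Type} [NormedAddCommGroup N] [NormedSpace ℝ N]
  {U V W : Type} [NormedAddCommGroup U] [InnerProductSpace ℝ U]
  [NormedAddCommGroup V] [InnerProductSpace ℝ V] [NormedAddCommGroup W] [InnerProductSpace ℝ W]

theorem md {f : M → N} (h : Sm I f) (x : M) : MDifferentiableAt I 𝓘(ℝ, N) f x :=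
  h.mdifferentiableAt (by simp)

variable (I M V) in
/-- test functions -/
abbrev T := Sec I (triv M V)

/-- a test function -/
def tst (u : M → V) (hu : Sm I u) (hc : HasCompactSupport u) : T I M V := ⟨u, hu, hc, fun _ => rfl⟩

/-- a section as a test function -/
def toT (p : M → V →L[ℝ] V) : Sec I p →ₗ[ℝ] T I M V where
  toFun u := tst u.1 u.2.1 u.2.2.1
  map_add' _ _ := rfl
  map_smul' _ _ := rfl

@[simp] theorem toT_val (p : M → V →L[ℝ] V) (u : Sec I p) : (toT p u).1 = u.1 := rfl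

/-- multiplication by a smooth coefficient -/
def mul (f : M → V →L[ℝ] W) (hf : Sm I f) : T I M V →ₗ[ℝ] T I M W where
  toFun u := tst (fun x => f x (u.1 x)) (hf.clm_apply u.2.1)
    (u.2.2.1.mono fun x hx h => hx (by simp [h]))
  map_add' u v := Subtype.ext (funext fun x => map_add (f x) _ _)
  map_smul' r u := Subtype.ext (funext fun x => map_smul (f x) _ _)

@[simp] theorem mul_val (f : M → V →L[ℝ] W) (hf : Sm I f) (u : T I M V) (x : M) :
    (mul f hf u).1 x = f x (u.1 x) := rfl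

variable (V) in
/-- a scalar function as a coefficient -/
def sc (g : M → ℝ) : M → V →L[ℝ] V := fun x => ContinuousLinearMap.lsmul ℝ ℝ (g x)

@[simp] theorem sc_apply (g : M → ℝ) (x : M) (v : V) : sc V g x v = g x • v := rfl

theorem sm_sc {g : M → ℝ} (hg : Sm I g) : Sm I (sc V g) :=
  (ContinuousLinearMap.lsmul ℝ ℝ : ℝ →L[ℝ] V →L[ℝ] V).contMDiff.comp hg

/-- the derivative on test functions -/
def DT (F : Pre I M ι) (a : ι) : T I M V →ₗ[ℝ] T I M V where
  toFun u := tst (F.D a u.1) (F.sm_D u.2.1 a) (F.hcs_D u.2.2.1 a)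
  map_add' u v := Subtype.ext (F.D_add u.2.1 v.2.1 a)
  map_smul' r u := Subtype.ext (F.D_smul u.2.1 r a)

@[simp] theorem DT_val (F : Pre I M ι) (a : ι) (u : T I M V) : (DT F a u).1 = F.D a u.1 := rfl

theorem sum_val {κ : Type*} (s : Finset κ) (u : κ → T I M V) (x : M) :
    (∑ i ∈ s, u i).1 x = ∑ i ∈ s, (u i).1 x := by
  rw [Submodule.coe_sum, Finset.sum_apply]

theorem D_app (F : Pre I M ι) (a : ι) {f : M → V →L[ℝ] W} (hf : Sm I f) {u : M → V} (hu : Sm I u)
    (x : M) : F.D a (fun y => f y (u y)) x = F.D a f x (u x) + f x (F.D a u x) :=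
  dv_app (md hf x) (md hu x)

theorem D_sc (F : Pre I M ι) (a : ι) {g : M → ℝ} (hg : Sm I g) :
    F.D a (sc V g) = sc V (F.D a g) :=
  funext fun x => dv_clm (ContinuousLinearMap.lsmul ℝ ℝ : ℝ →L[ℝ] V →L[ℝ] V) (md hg x)

theorem DT_mul (F : Pre I M ι) (a : ι) {f : M → V →L[ℝ] W} (hf : Sm I f) (u : T I M V) :
    DT F a (mul f hf u) = mul (F.D a f) (F.sm_D hf a) u + mul f hf (DT F a u) :=
  Subtype.ext (funext fun x => D_app F a hf u.2.1 x)

theorem D_inner (F : Pre I M ι) (a : ι) {u v : M → V} (hu : Sm I u) (hv : Sm I v) (x : M) :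
    F.D a (fun y => ⟪u y, v y⟫_ℝ) x = ⟪F.D a u x, v x⟫_ℝ + ⟪u x, F.D a v x⟫_ℝ :=
  dv_bil (innerSL ℝ : V →L[ℝ] V →L[ℝ] ℝ) (md hu x) (md hv x)

theorem sm_inner {u v : M → V} (hu : Sm I u) (hv : Sm I v) : Sm I fun y => ⟪u y, v y⟫_ℝ :=
  smooth_bil (innerSL ℝ : V →L[ℝ] V →L[ℝ] ℝ) hu hv

/-- the frame reproduces itself -/
theorem sum_P_D (F : Fr I M ι) (a : ι) (u : M → N) (x : M) :
    ∑ b, F.P a b x • F.D b u x = F.D a u x := by
  simp only [Pre.D, Sob92.dv]
  conv_rhs => rw [← F.P_e a x]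
  simp only [map_sum, map_smul]
  rfl

/-- brackets on vector valued functions -/
theorem D_br (F : Fr I M ι) (a b : ι) {u : M → N} (hu : Sm I u) (x : M) :
    F.D a (F.D b u) x - F.D b (F.D a u) x = ∑ l, F.c a b l x • F.D l u x := by
  refine SeparatingDual.eq_iff_forall_dual_eq (R := ℝ) |>.2 fun L => ?_
  have h1 : ∀ (c : ι) {v : M → N}, Sm I v → F.D c (fun y => L (v y)) = fun y => L (F.D c v y) :=
    fun c v hv => funext fun y => dv_clm L (md hv y)
  have h := F.br a b (fun y => L (u y)) x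
    ((L.contMDiff.comp hu x).of_le (WithTop.coe_le_coe.2 le_top))
  simp only [h1 _ hu, h1 _ (F.sm_D hu _)] at h
  simp only [map_sub, map_sum, map_smul, smul_eq_mul, h]

variable [T2Space M] [BorelSpace M]

variable (V) in
/-- the Sobolev scale of test functions -/
def scl (F : Pre I M ι) : Scl ι (T I M V) where
  ip := (innerₗ (F.H 0 (triv M V))).compl₁₂ (F.toH 0 _) (F.toH 0 _)
  D := DT F
  N k := (normSeminorm ℝ _).comp (F.toH k _)
  symm u v := real_inner_comm (F.toH 0 _ v) (F.toH 0 _ u)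
  N0 u := (real_inner_self_eq_norm_sq (F.toH 0 _ u)).symm
  Ns k u := by
    simp only [Seminorm.comp_apply, coe_normSeminorm, Pre.norm_toH]
    exact nrm_succ_sq k u.1

variable {F : Pre I M ι}

theorem scl_N (k : ℕ) (u : T I M V) : (scl V F).N k u = F.nrm k u.1 := F.norm_toH k _ u

theorem scl_ip (u v : T I M V) : (scl V F).ip u v = ∫ x, ⟪u.1 x, v.1 x⟫_ℝ ∂F.μ :=
  F.inner_toH 0 _ u v

@[simp] theorem scl_D (a : ι) : (scl V F).D a = DT F a := rfl

theorem ip_mul {f : M → V →L[ℝ] W} (hf : Sm I f) {g : M → W →L[ℝ] V} (hg : Sm I g)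
    (h : ∀ x v w, ⟪f x v, w⟫_ℝ = ⟪v, g x w⟫_ℝ) (u : T I M V) (w : T I M W) :
    (scl W F).ip (mul f hf u) w = (scl V F).ip u (mul g hg w) := by
  simp only [scl_ip, mul_val, h]

/-- the formal adjoint of the derivative -/
def Ds (F : Fr I M ι) (a : ι) : T I M V →ₗ[ℝ] T I M V :=
  -DT F.toPre a - mul (sc V (F.dv a)) (sm_sc (F.dv_sm a))

theorem Ds_val (F : Fr I M ι) (a : ι) (u : T I M V) (x : M) :
    (Ds F a u).1 x = -F.D a u.1 x - F.dv a x • u.1 x := rfl

/-- integration by parts -/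
theorem ibp_fun (F : Fr I M ι) (a : ι) {u v : M → V} (hu : Sm I u) (hc : HasCompactSupport u)
    (hv : Sm I v) :
    ∫ x, ⟪F.D a u x, v x⟫_ℝ ∂F.μ = ∫ x, ⟪u x, -F.D a v x - F.dv a x • v x⟫_ℝ ∂F.μ := by
  have h := F.ibp a (fun y => ⟪u y, v y⟫_ℝ) (sm_inner hu hv)
    (hc.mono fun x hx h => hx (by simp [h]))
  simp only [D_inner F.toPre a hu hv] at h
  have i1 := F.integrable_inner (F.sm_D hu a).continuous (F.hcs_D hc a) hv.continuous
  have i2 := F.integrable_inner hu.continuous hc (F.sm_D hv a).continuous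
  have i3 : Integrable (fun x => ⟪u x, F.dv a x • v x⟫_ℝ) F.μ :=
    F.integrable_inner hu.continuous hc ((F.dv_sm a).continuous.smul hv.continuous)
  have i4 : Integrable (fun x => -⟪u x, F.D a v x⟫_ℝ) F.μ := i2.neg
  rw [integral_add i1 i2] at h
  simp only [inner_sub_right, inner_neg_right]
  rw [integral_sub i4 i3, integral_neg]
  simp only [real_inner_smul_right]
  linarith

theorem ip_D (F : Fr I M ι) (a : ι) (u v : T I M V) :
    (scl V F.toPre).ip ((scl V F.toPre).D a u) v = (scl V F.toPre).ip u (Ds F a v) := by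
  simp only [scl_ip, scl_D, DT_val, Ds_val]
  exact ibp_fun F a u.2.1 u.2.2.1 v.2.1

/-- the bracket operator -/
def Br (F : Fr I M ι) (a b : ι) : T I M V →ₗ[ℝ] T I M V :=
  ∑ l, mul (sc V (F.c a b l)) (sm_sc (F.c_sm a b l)) ∘ₗ DT F.toPre l

theorem DT_br (F : Fr I M ι) (a b : ι) (u : T I M V) :
    DT F.toPre a (DT F.toPre b u) = DT F.toPre b (DT F.toPre a u) + Br F a b u := by
  refine Subtype.ext (funext fun x => ?_)
  have h := D_br F a b u.2.1 x
  rw [Br, LinearMap.sum_apply]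
  rw [Submodule.coe_add, Pi.add_apply, sum_val]
  exact (sub_eq_iff_eq_add'.1 h)

/-- the commutator of the Laplacian with a derivative -/
def Tc (F : Fr I M ι) (c : ι) : T I M V →ₗ[ℝ] T I M V :=
  ∑ a, (Ds F a ∘ₗ Br F a c + (mul (F.D c (sc V (F.dv a))) (F.sm_D (sm_sc (F.dv_sm a)) c) -
    Br F a c) ∘ₗ DT F.toPre a)

theorem lap_comm (F : Fr I M ι) (c : ι) (u : T I M V) :
    (lap (scl V F.toPre) (Ds F) ∘ₗ (scl V F.toPre).D c -
      (scl V F.toPre).D c ∘ₗ lap (scl V F.toPre) (Ds F)) u = Tc F c u := by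
  simp only [Tc, lap, scl_D, LinearMap.sub_apply, LinearMap.comp_apply, LinearMap.sum_apply, map_sum,
    ← Finset.sum_sub_distrib, LinearMap.add_apply]
  refine Finset.sum_congr rfl fun a _ => ?_
  rw [DT_br F a c u, map_add]
  simp only [Ds, LinearMap.sub_apply, LinearMap.neg_apply, map_sub, map_neg]
  rw [DT_br F a c (DT F.toPre a u), DT_mul]
  abel

variable [SecondCountableTopology M]

theorem ord_mul {f : M → V →L[ℝ] W} {C : ℕ → ℝ} (h : F.CBs f C) :
    Ord (scl V F) (scl W F) 0 (mul f h.1) fun k => cK ι k * |C k| :=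
  ⟨fun k => mul_nonneg (cK_nonneg k) (abs_nonneg _), fun k u => by
    rw [scl_N, scl_N]
    exact nrm_app h.1 u.2.1 (h.2 k) (FL_of_hcs k u.2.1 u.2.2.1)⟩

end Crest.Agent.X212.Ell97
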