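import Crest.Agent.X212.Ell97.Main

/-! Interior estimates for smooth sections without support condition; Hodge decomposition. -/

set_option autoImplicit false
set_option linter.unusedSectionVars false
noncomputable section
open scoped Manifold ContDiff Topology InnerProductSpace
open MeasureTheory Set Function Filter Module

namespace Crest.Agent.X212.Ell97
open An An.Pre Sob92

theorem Half.mem_range_LL {X Y : ℕ → Type*} [∀ k, NormedAddCommGroup (X k)]
    [∀ k, InnerProductSpace ℝ (X k)] [∀ k, NormedAddCommGroup (Y k)]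
    [∀ k, InnerProductSpace ℝ (Y k)] [∀ k, CompleteSpace (X k)] [∀ k, CompleteSpace (Y k)]
    (P : Half X Y) (hcl : IsClosed ((P.LL 0).range : Set (X 0))) (k : ℕ) : ∀ {f : X k},
    (∀ v, P.L 0 v = 0 → ⟪dn0 P.i k f, P.i 0 v⟫_ℝ = 0) → ∃ x, P.LL k x = f := by
  induction k with
  | zero =>
    intro f hf
    have := hcl.completeSpace_coe
    have h1 : f ∈ (P.LL 0).rangeᗮᗮ := by
      intro y hy
      obtain ⟨x, rfl⟩ := (P.Q_bij 0).2 y
      have h2 : ⟪P.LL 0 x, P.i 0 (P.i 1 x) + P.LL 0 x⟫_ℝ = 0 := hy _ ⟨x, rfl⟩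
      have h3 := P.adj (P.i 1 x) (P.L 1 x)
      rw [P.Li] at h3
      rw [inner_add_right, real_inner_comm, show ⟪P.i 0 (P.i 1 x), P.LL 0 x⟫_ℝ = _ from h3.symm] at h2
      have h4 := real_inner_self_nonneg (x := P.L 0 (P.i 1 x))
      have h5 := real_inner_self_nonneg (x := P.LL 0 x)
      have h6 : P.LL 0 x = 0 := real_inner_self_nonpos.1 (by linarith)
      have h7 : P.L 0 (P.i 1 x) = 0 := real_inner_self_nonpos.1 (by linarith)
      rw [show P.Q 0 x = P.i 0 (P.i 1 x) + P.LL 0 x from rfl, h6, add_zero, real_inner_comm]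
      exact hf _ h7
    rwa [Submodule.orthogonal_orthogonal] at h1
  | succ k ih =>
    intro f hf
    obtain ⟨x, hx⟩ := ih (f := P.i k f) hf
    have h1 : P.i (k + 2) (P.G (k + 1) (P.i (k + 1) x + f)) = x := by
      rw [← P.G_i, map_add, ← hx]
      exact P.G_Q k x
    have h2 := P.Q_G (k + 1) (P.i (k + 1) x + f)
    rw [P.Q_apply, h1] at h2
    exact ⟨_, add_left_cancel h2⟩

variable {E : Type} [NormedAddCommGroup E] [NormedSpace ℝ E] [FiniteDimensional ℝ E]
  [MeasurableSpace E] [BorelSpace E]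
  {HM : Type} [TopologicalSpace HM] {I : ModelWithCorners ℝ E HM}
  {M : Type} [TopologicalSpace M] [ChartedSpace HM M] [IsManifold I ∞ M]
  [MeasurableSpace M] {ι : Type} [Fintype ι]
  {N : Type} [NormedAddCommGroup N] [NormedSpace ℝ N]
  {U V W : Type} [NormedAddCommGroup U] [InnerProductSpace ℝ U]
  [NormedAddCommGroup V] [InnerProductSpace ℝ V] [NormedAddCommGroup W] [InnerProductSpace ℝ W]
  [T2Space M] [BorelSpace M] [SecondCountableTopology M]

/-- the local `L²_k` norm -/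
def nS (F : Pre I M ι) (S : Set M) (k : ℕ) (u : M → N) : ℝ := √(NS F S k u)

section
variable {F : Pre I M ι} {S : Set M} {k : ℕ}

theorem nS_nonneg (u : M → N) : 0 ≤ nS F S k u := Real.sqrt_nonneg _

theorem nS_mono {j : ℕ} (h : j ≤ k) (u : M → N) : nS F S j u ≤ nS F S k u :=
  Real.sqrt_le_sqrt (n2_mono h u)

theorem nS_D (a : ι) (u : M → N) : nS F S k (F.D a u) ≤ nS F S (k + 1) u :=
  Real.sqrt_le_sqrt (n2_dv_le k u a)

theorem FS_of_compact (hS : IsCompact S) (k : ℕ) : ∀ {u : M → N}, Sm I u → FS F S k u := by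
  have h0 : ∀ {u : M → N}, Sm I u → MemLp u 2 (F.μ.restrict S) := fun {u} hu => by
    obtain ⟨C, hC⟩ := hS.exists_bound_of_continuousOn hu.continuous.continuousOn
    have : IsFiniteMeasure (F.μ.restrict S) := ⟨by simpa using hS.measure_lt_top⟩
    exact MemLp.of_bound hu.continuous.aestronglyMeasurable C
      ((ae_restrict_mem hS.measurableSet).mono hC)
  induction k with
  | zero => exact h0
  | succ k ih => exact fun hu => ⟨h0 hu, fun a => ih (F.sm_D hu a)⟩

/-- a coefficient supported in `S` only sees `S` -/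
theorem nrm_app_loc (hS : IsCompact S) {f : M → V →L[ℝ] W} {C : ℝ} (hf : Sm I f) (hC : F.CB k f C)
    (hs : ∀ x ∉ S, f x = 0) {u : M → V} (hu : Sm I u) :
    F.nrm k (fun x => f x (u x)) ≤ cK ι k * |C| * nS F S k u := by
  have h1 : tsupport (fun x => f x (u x)) ⊆ S :=
    closure_minimal (fun x hx => by_contra fun h => hx (by simp [hs x h])) hS.isClosed
  have h2 := (NS_mul (ContinuousLinearMap.id ℝ (V →L[ℝ] W)) hf hu hC (FS_of_compact hS k hu)).2
  have h3 := cK_nonneg (ι := ι) k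
  refine nrm_le_of_sq (mul_nonneg (by positivity) (nS_nonneg u)) ?_
  rw [← NS_of_tsupport k h1, mul_pow, nS, Real.sq_sqrt (n2_nonneg k u)]
  refine h2.trans (mul_le_mul_of_nonneg_right ?_ (n2_nonneg k u))
  have := ContinuousLinearMap.norm_id_le (𝕜 := ℝ) (E := V →L[ℝ] W)
  rw [mul_pow, mul_pow, mul_pow, sq_abs]
  exact mul_le_mul_of_nonneg_right (mul_le_of_le_one_right (sq_nonneg _)
    (pow_le_one₀ (norm_nonneg _) this)) (sq_nonneg _)

theorem nrm_op_loc (hS : IsCompact S) {σ : ι → M → V →L[ℝ] W} {B : M → V →L[ℝ] W} {C : ℕ → ℝ}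
    (hσ : ∀ a, F.CBs (σ a) C) (hB : F.CBs B C) (hs : ∀ a, ∀ x ∉ S, σ a x = 0)
    (hs' : ∀ x ∉ S, B x = 0) {u : M → V} (hu : Sm I u) :
    F.nrm k (F.op σ B u) ≤ (Fintype.card ι + 1) * (cK ι k * |C k|) * nS F S (k + 1) u := by
  have hc : ∀ {f : M → V →L[ℝ] W} (w : M → V), (∀ x ∉ S, f x = 0) →
      HasCompactSupport fun x => f x (w x) := fun w h =>
    HasCompactSupport.intro hS fun x hx => by simp [h x hx]
  have h0 : 0 ≤ cK ι k * |C k| := mul_nonneg (cK_nonneg k) (abs_nonneg _)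
  have h1 := nrm_sum_le (F := F) Finset.univ k (fun a _ => (hσ a).1.clm_apply (F.sm_D hu a))
    fun a _ => hc _ (hs a)
  have h2 := Finset.sum_le_sum fun a (_ : a ∈ Finset.univ) =>
    (nrm_app_loc hS (hσ a).1 ((hσ a).2 k) (hs a) (F.sm_D hu a)).trans
      (mul_le_mul_of_nonneg_left (nS_D a u) h0)
  have h3 := (nrm_app_loc hS hB.1 (hB.2 k) hs' hu).trans
    (mul_le_mul_of_nonneg_left (nS_mono k.le_succ u) h0)
  rw [Finset.sum_const, Finset.card_univ, nsmul_eq_mul] at h2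
  refine (nrm_add_le k (contMDiff_finsetSum fun a _ => (hσ a).1.clm_apply (F.sm_D hu a))
    (HasCompactSupport.intro hS fun x hx => by simp [hs _ x hx]) (hB.1.clm_apply hu)
    (hc _ hs')).trans ?_
  linarith

theorem nS_le_cut {S' : Set M} (hS' : MeasurableSet S') {χ : M → ℝ} (hχ : Sm I χ)
    (hc : HasCompactSupport χ) (h1 : ∀ x ∈ S', χ =ᶠ[𝓝 x] fun _ => 1) {u : M → V} (hu : Sm I u) :
    nS F S' k u ≤ F.nrm k fun x => χ x • u x := by
  rw [nrm_eq, nS, NS_congr (v := fun x => χ x • u x) hS' k fun x hx =>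
    (h1 x hx).mono fun y hy => by simp [hy]]
  exact Real.sqrt_le_sqrt (NS_le (FL_of_hcs k (hχ.smul hu) hc.smul_right) _)

end

theorem sy_eq_zero {F : Fr I M ι} {A : Op M ι V W} {χ : M → ℝ} {x : M} (hx : x ∉ tsupport χ) :
    sy F A χ x = 0 := by
  simp [sy, fun a => image_eq_zero_of_notMem_tsupport fun h => hx (F.tsupport_D χ a h)]

/-- **Interior estimates**, first and second order, uniform in the family. -/
theorem loc_fam {J : Type*} {F : J → Fr I M ι} {A : J → Op M ι V W} {s : J → ι → M → W →L[ℝ] V}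
    {B' : J → M → W →L[ℝ] V} {C : ℕ → ℝ} (h : ∀ j, Du (F j) (A j) (s j) (B' j) C) {χ : J → M → ℝ}
    (hχ : UB (fun j => (F j).toPre) χ) (hc : ∀ j, HasCompactSupport (χ j)) :
    ∃ K : ℕ → ℝ, (∀ k, 0 ≤ K k) ∧ ∀ j k (u : M → V), Sm I u →
      (∀ x ∈ tsupport (χ j), (A j).p x (u x) = u x) →
      (F j).nrm (k + 1) (fun x => χ j x • u x) ≤ K k * (nS (F j).toPre (tsupport (χ j)) k
        ((A j).app (F j) u) + nS (F j).toPre (tsupport (χ j)) k u) ∧
      (F j).nrm (k + 2) (fun x => χ j x • u x) ≤ K k * (nS (F j).toPre (tsupport (χ j)) k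
        (u + (dual (A j) (s j) (B' j)).app (F j) ((A j).app (F j) u)) +
          nS (F j).toPre (tsupport (χ j)) (k + 1) u) := by
  obtain ⟨K, hK, h1⟩ := est_fam h
  have hy := ub_sy (fun j => (h j).g) hχ
  have hy' := ub_sy (fun j => (h j).g') hχ
  obtain ⟨C1, c1⟩ := hχ.sc (V := V)
  obtain ⟨C2, c2⟩ := hχ.sc (V := W)
  obtain ⟨C3, c3⟩ := hy
  obtain ⟨C4, c4⟩ := UB.unif (κ := Option ι) (F := fun j => (F j).toPre)
    (f := fun o j x => (sy (F j) (dual (A j) (s j) (B' j)) (χ j) x).comp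
      (o.elim (A j).B (A j).σ x)) fun o => hy'.comp (by
        rcases o with _ | a
        exacts [⟨C, fun j => (h j).g.B⟩, ⟨C, fun j => (h j).g.σ a⟩])
  obtain ⟨l, hl⟩ := (fo_LT fun j => (h j).g').uo
  let c : ℕ → ℝ := fun k => cK ι k * |C1 k| + cK ι k * |C2 k| + cK ι k * |C3 k| +
    cK ι 0 * |C1 0| + |l k| * (cK ι (k + 1) * |C3 (k + 1)|) +
    (Fintype.card ι + 1) * (cK ι k * |C4 k|)
  have hk := fun k => cK_nonneg (ι := ι) k
  refine ⟨fun k => K k * c k, fun k => mul_nonneg (hK k) (by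
    have := hk k; have := hk 0; have := hk (k + 1); positivity), fun j k u hu hp => ?_⟩
  have hS := (hc j).isCompact
  have z : ∀ {X : Type} [NormedAddCommGroup X] [InnerProductSpace ℝ X], ∀ x ∉ tsupport (χ j),
      sc X (χ j) x = 0 := fun x hx => by simp [sc, image_eq_zero_of_notMem_tsupport hx]
  have cs : ∀ {X Y : Type} [NormedAddCommGroup X] [InnerProductSpace ℝ X] [NormedAddCommGroup Y]
      [InnerProductSpace ℝ Y] {f : M → X →L[ℝ] Y} (w : M → X), (∀ x ∉ tsupport (χ j), f x = 0) →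
      HasCompactSupport fun x => f x (w x) := fun w h =>
    HasCompactSupport.intro hS fun x hx => by simp [h x hx]
  let v : Sec I (A j).p := ⟨fun x => χ j x • u x, (hχ.sm j).smul hu, (hc j).smul_right, fun x => by
    by_cases hx : x ∈ tsupport (χ j)
    · rw [map_smul, hp x hx]
    · simp [image_eq_zero_of_notMem_tsupport hx]⟩
  have hAu := sm_app (h j).g hu
  have e1 : (A j).app (F j) v.1 = (fun y => sc W (χ j) y ((A j).app (F j) u y)) +
      fun y => sy (F j) (A j) (χ j) y (u y) := funext fun y => app_smul (hχ.sm j) hu y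
  have p1 := mul_nonneg (hk k) (abs_nonneg (C1 k))
  have p2 := mul_nonneg (hk k) (abs_nonneg (C2 k))
  have p3 := mul_nonneg (hk k) (abs_nonneg (C3 k))
  have p4 := mul_nonneg (hk 0) (abs_nonneg (C1 0))
  have p5 := mul_nonneg (abs_nonneg (l k)) (mul_nonneg (hk (k + 1)) (abs_nonneg (C3 (k + 1))))
  have p6 : 0 ≤ ((Fintype.card ι : ℝ) + 1) * (cK ι k * |C4 k|) :=
    mul_nonneg (by positivity) (mul_nonneg (hk k) (abs_nonneg (C4 k)))
  constructor
  · refine (h1 j k v).1.trans ?_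
    rw [mul_assoc]
    refine mul_le_mul_of_nonneg_left ?_ (hK k)
    have a1 := nrm_add_le (F := (F j).toPre) k ((c2 j).1.clm_apply hAu) (cs _ z)
      ((c3 j).1.clm_apply hu) (cs _ fun x hx => sy_eq_zero hx)
    have a2 := nrm_app_loc hS (c2 j).1 ((c2 j).2 k) z hAu
    have a3 := nrm_app_loc hS (c3 j).1 ((c3 j).2 k) (fun x hx => sy_eq_zero hx) hu
    have a4 := (nrm_app_loc hS (c1 j).1 ((c1 j).2 0) z hu).trans
      (mul_le_mul_of_nonneg_left (nS_mono (Nat.zero_le k) u) p4)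
    have n1 := nS_nonneg (F := (F j).toPre) (S := tsupport (χ j)) (k := k) u
    have n2 := nS_nonneg (F := (F j).toPre) (S := tsupport (χ j)) (k := k) ((A j).app (F j) u)
    rw [← e1] at a1
    change (F j).nrm 0 v.1 ≤ _ at a4
    simp only [c]
    nlinarith [mul_nonneg p1 n1, mul_nonneg p1 n2, mul_nonneg p2 n1, mul_nonneg p3 n2,
      mul_nonneg p4 n2, mul_nonneg p5 n1, mul_nonneg p5 n2, mul_nonneg p6 n1, mul_nonneg p6 n2]
  · refine (h1 j k v).2.trans ?_
    rw [mul_assoc]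
    refine mul_le_mul_of_nonneg_left ?_ (hK k)
    set A' := dual (A j) (s j) (B' j)
    have hQ : Sm I (u + A'.app (F j) ((A j).app (F j) u)) := hu.add (sm_app (h j).g' hAu)
    let w : T I M W := tst _ ((c3 j).1.clm_apply hu) (cs _ fun x hx => sy_eq_zero hx)
    have e2 : v.1 + A'.app (F j) ((A j).app (F j) v.1) =
        ((fun y => sc V (χ j) y ((u + A'.app (F j) ((A j).app (F j) u)) y)) + (LT (h j).g' w).1) +
        (F j).op (fun a x => (sy (F j) A' (χ j) x).comp ((A j).σ a x))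
          (fun x => (sy (F j) A' (χ j) x).comp ((A j).B x)) u := by
      funext x
      rw [e1, Pi.add_apply, app_add ((c2 j).1.clm_apply hAu) ((c3 j).1.clm_apply hu), LT_val]
      have e3 := app_smul (F := F j) (A := A') (hχ.sm j) hAu x
      have e4 : (F j).op (fun a x => (sy (F j) A' (χ j) x).comp ((A j).σ a x))
          (fun x => (sy (F j) A' (χ j) x).comp ((A j).B x)) u x =
          sy (F j) A' (χ j) x ((A j).app (F j) u x) := by
        simp only [Op.app, Pre.op, map_add, map_sum, ContinuousLinearMap.comp_apply]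
      simp only [sc_apply, Pi.add_apply, e3, e4, smul_add, v, w, tst]
      abel
    have y1 : ∀ a, ∀ x ∉ tsupport (χ j), (sy (F j) A' (χ j) x).comp ((A j).σ a x) = 0 :=
      fun a x hx => by rw [sy_eq_zero hx, ContinuousLinearMap.zero_comp]
    have y2 : ∀ x ∉ tsupport (χ j), (sy (F j) A' (χ j) x).comp ((A j).B x) = 0 :=
      fun x hx => by rw [sy_eq_zero hx, ContinuousLinearMap.zero_comp]
    have y3 : ∀ x ∉ tsupport (χ j), (F j).op (fun a x => (sy (F j) A' (χ j) x).comp ((A j).σ a x))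
        (fun x => (sy (F j) A' (χ j) x).comp ((A j).B x)) u x = 0 := fun x hx => by
      simp only [Pre.op, y1 _ x hx, y2 x hx, _root_.zero_apply, Finset.sum_const_zero, add_zero]
    have c5 : ∀ a, (F j).CBs (fun x => (sy (F j) A' (χ j) x).comp ((A j).σ a x)) C4 :=
      fun a => c4 j (some a)
    have c6 : (F j).CBs (fun x => (sy (F j) A' (χ j) x).comp ((A j).B x)) C4 := c4 j none
    have y4 := sm_op (F := (F j).toPre) (fun a => (c5 a).1) c6.1 hu
    have y5 := cs (f := sc V (χ j)) (u + A'.app (F j) ((A j).app (F j) u)) z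
    have y6 : Sm I fun y => sc V (χ j) y ((u + A'.app (F j) ((A j).app (F j) u)) y) :=
      (c1 j).1.clm_apply hQ
    have a0 := nrm_add_le (F := (F j).toPre) k (u := _ + _) (y6.add (LT (h j).g' w).2.1)
      (y5.add (LT (h j).g' w).2.2.1) y4 (HasCompactSupport.intro hS y3)
    have a1 := nrm_add_le (F := (F j).toPre) k y6 y5 (LT (h j).g' w).2.1
      (LT (h j).g' w).2.2.1
    have a2 := nrm_app_loc hS (c1 j).1 ((c1 j).2 k) z hQ
    have a3 := (hl j).le k w
    have a4 := mul_le_mul_of_nonneg_left (nrm_app_loc hS (c3 j).1 ((c3 j).2 (k + 1))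
      (fun x hx => sy_eq_zero hx) hu) (abs_nonneg (l k))
    have a5 := nrm_op_loc (k := k) hS c5 c6 y1 y2 hu
    rw [scl_N, scl_N] at a3
    have a6 := mul_le_mul_of_nonneg_right (le_abs_self (l k))
      (nrm_nonneg (F := (F j).toPre) (k + 1) w.1)
    have n1 := nS_nonneg (F := (F j).toPre) (S := tsupport (χ j)) (k := k + 1) u
    have n2 := nS_nonneg (F := (F j).toPre) (S := tsupport (χ j)) (k := k)
      (u + A'.app (F j) ((A j).app (F j) u))
    rw [e2]
    change |l k| * (F j).nrm (k + 1) w.1 ≤ _ at a4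
    refine a0.trans ((add_le_add (a1.trans (add_le_add a2 (a3.trans (a6.trans a4)))) a5).trans ?_)
    simp only [c]
    nlinarith [mul_nonneg p1 n1, mul_nonneg p2 n1, mul_nonneg p2 n2, mul_nonneg p3 n1,
      mul_nonneg p3 n2, mul_nonneg p4 n1, mul_nonneg p4 n2, mul_nonneg p5 n2, mul_nonneg p6 n2]

variable (I M V) in
/-- **Interior estimate for the connection Laplacian.** -/
theorem loc_lap (C : ℕ → ℝ) : ∃ K : ℕ → ℝ, (∀ k, 0 ≤ K k) ∧
    ∀ (F : Fr I M ι) (A : ι → M → V →L[ℝ] V) (χ : M → ℝ), F.Tame C → (∀ a, F.CBs (A a) C) →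
      (∀ a x, Wz78.Skew (A a x)) → F.CBs χ C → HasCompactSupport χ → ∀ k (u : M → V), Sm I u →
      F.nrm (k + 2) (fun x => χ x • u x) ≤ K k * (nS F.toPre (tsupport χ) k
        (fun x => u x + Wz78.lap I F.e F.dv A u x) + nS F.toPre (tsupport χ) (k + 1) u) := by
  let J := {d : Fr I M ι × (ι → M → V →L[ℝ] V) × (M → ℝ) // d.1.Tame C ∧
    (∀ a, d.1.CBs (d.2.1 a) C) ∧ (∀ a x, Wz78.Skew (d.2.1 a x)) ∧ d.1.CBs d.2.2 C ∧
    HasCompactSupport d.2.2}
  obtain ⟨C', h⟩ := du_nab_fam (J := J) (F := fun j => j.1.1) (A := fun j => j.1.2.1)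
    (fun j => j.2.1) (fun j => j.2.2.1) fun j => j.2.2.2.1
  obtain ⟨K, hK, h1⟩ := loc_fam h (χ := fun j => j.1.2.2) ⟨C, fun j => j.2.2.2.2.1⟩
    fun j => j.2.2.2.2.2
  refine ⟨K, hK, fun F A χ h2 h3 h4 h5 h6 k u hu => ?_⟩
  have h7 := (h1 ⟨(F, A, χ), h2, h3, h4, h5, h6⟩ k u hu fun _ _ => rfl).2
  rw [show (fun x => u x + Wz78.lap I F.e F.dv A u x) = _ from
    funext fun x => congrArg (u x + ·) (nab_nab F A (fun a => (h3 a).1) hu x).symm]
  exact h7

variable [FiniteDimensional ℝ V] [FiniteDimensional ℝ W]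

variable (I M V W) in
/-- **Interior estimate for first order operators.** -/
theorem loc_unif (C : ℕ → ℝ) : ∃ K : ℕ → ℝ, (∀ k, 0 ≤ K k) ∧
    ∀ (F : Fr I M ι) (A : Op M ι V W) (χ : M → ℝ), F.Tame C → A.Good F C → A.CliffL F →
      F.CBs χ C → HasCompactSupport χ → ∀ k (u : M → V), Sm I u →
      (∀ x ∈ tsupport χ, A.p x (u x) = u x) → F.nrm (k + 1) (fun x => χ x • u x) ≤
        K k * (nS F.toPre (tsupport χ) k (A.app F u) + nS F.toPre (tsupport χ) k u) := by
  let J := {d : Fr I M ι × Op M ι V W × (M → ℝ) // d.1.Tame C ∧ d.2.1.Good d.1 C ∧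
    d.2.1.CliffL d.1 ∧ d.1.CBs d.2.2 C ∧ HasCompactSupport d.2.2}
  obtain ⟨C', h⟩ := du_fam (J := J) (F := fun j => j.1.1) (A := fun j => j.1.2.1)
    (fun j => j.2.1) fun j => j.2.2.1
  obtain ⟨K, hK, h1⟩ := loc_fam (fun j : J => (h j).1 j.2.2.2.1) (χ := fun j => j.1.2.2)
    ⟨C, fun j => j.2.2.2.2.1⟩ fun j => j.2.2.2.2.2
  exact ⟨K, hK, fun F A χ h2 h3 h4 h5 h6 k u hu hp =>
    (h1 ⟨(F, A, χ), h2, h3, h4, h5, h6⟩ k u hu hp).1⟩

variable [I.Boundaryless] [CompactSpace M] {F : Fr I M ι} {A : Op M ι V W} {C C' : ℕ → ℝ}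

/-- the range of `A* A` is the `L²` complement of the kernel of `A` -/
theorem mem_range_LL (hF : F.Tame C) (hA : A.Good F C') (hc : A.CliffL F) (k : ℕ)
    {f : F.H k A.p} (hf : ∀ v ∈ kerS F A, ⟪F.incl k 0 A.p f, F.toH 0 A.p v⟫_ℝ = 0) :
    ∃ x, Hs F A k (A.H F (k + 1) x) = f := by
  refine (hlf hF hA hc).mem_range_LL (fr_LL hF hA hc 0).1.isClosed_range k fun v hv => ?_
  obtain ⟨u, hu⟩ := (kerSEquiv hF hA hc 0).surjective ⟨v, hv⟩
  obtain rfl : F.toH 1 A.p u.1 = v := congrArg Subtype.val hu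
  have := hf u.1 u.2
  rwa [← dn0_incl, ← incl_toH zero_le_one] at this

/-- **Hodge decomposition**: `w = A x + z` with `A* z = 0`. -/
theorem hodge (hF : F.Tame C) (hA : A.Good F C') (hc : A.CliffL F) (k : ℕ) (w : F.H (k + 1) A.q) :
    ∃ x : F.H (k + 2) A.p, Hs F A k (w - A.H F (k + 1) x) = 0 := by
  obtain ⟨x, hx⟩ := mem_range_LL hF hA hc k (f := Hs F A k w) fun v hv => by
    have h2 := (hlf hF hA hc).adjk 0 k (F.toH 1 A.p v) w
    rw [show (hlf hF hA hc).L 0 (F.toH 1 A.p v) = 0 from (kerSEquiv hF hA hc 0 ⟨v, hv⟩).2, map_zero,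
      inner_zero_left] at h2
    have h4 := (dn0_incl (F := F) A.p 1 (F.toH 1 A.p v)).trans (incl_toH zero_le_one _)
    rw [← dn0_incl, ← h4, real_inner_comm]
    exact h2.symm
  exact ⟨x, by rw [map_sub, hx, sub_self]⟩

end Crest.Agent.X212.Ell97
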