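import Crest.Agent.X212.Ell97.Scale

/-! Uniform bounds in families: coefficients `UB`, operators `UO`, first order operators `FO`. -/

set_option autoImplicit false
set_option linter.unusedSectionVars false
noncomputable section
open scoped Manifold ContDiff Topology InnerProductSpace
open MeasureTheory Set Function Filter

namespace Crest.Agent.X212.Ell97
open An Sob92

section UO
variable {J : Type*} {ι S S' S'' : Type*} [Fintype ι] [AddCommGroup S] [Module ℝ S]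
  [AddCommGroup S'] [Module ℝ S'] [AddCommGroup S''] [Module ℝ S'']

/-- order `m` with bounds uniform in the family -/
def UO (A : J → Scl ι S) (A' : J → Scl ι S') (m : ℕ) (L : J → S →ₗ[ℝ] S') : Prop :=
  ∃ c, ∀ j, Ord (A j) (A' j) m (L j) c

namespace UO
variable {A : J → Scl ι S} {A' : J → Scl ι S'} {A'' : J → Scl ι S''} {m m' : ℕ}
  {L L' : J → S →ₗ[ℝ] S'}

theorem up (h : UO A A' m L) (hm : m ≤ m') : UO A A' m' L :=
  let ⟨_, h⟩ := h; ⟨_, fun j => (h j).up hm⟩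

theorem congr (h : UO A A' m L) (e : ∀ j u, L' j u = L j u) : UO A A' m L' :=
  let ⟨_, h⟩ := h; ⟨_, fun j => (h j).congr (e j)⟩

theorem D (A : J → Scl ι S) (a : ι) : UO A A 1 fun j => (A j).D a := ⟨_, fun j => Ord.D (A j) a⟩

theorem add (h : UO A A' m L) (h' : UO A A' m L') : UO A A' m fun j => L j + L' j :=
  let ⟨_, h⟩ := h; let ⟨_, h'⟩ := h'; ⟨_, fun j => (h j).add (h' j)⟩

theorem sub (h : UO A A' m L) (h' : UO A A' m L') : UO A A' m fun j => L j - L' j :=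
  let ⟨_, h⟩ := h; let ⟨_, h'⟩ := h'; ⟨_, fun j => (h j).sub (h' j)⟩

theorem neg (h : UO A A' m L) : UO A A' m fun j => -L j :=
  let ⟨_, h⟩ := h; ⟨_, fun j => (h j).neg⟩

theorem comp {U : J → S' →ₗ[ℝ] S''} (h' : UO A' A'' m' U) (h : UO A A' m L) :
    UO A A'' (m' + m) fun j => U j ∘ₗ L j :=
  let ⟨_, h⟩ := h; let ⟨_, h'⟩ := h'; ⟨_, fun j => (h' j).comp (h j)⟩

theorem unif {κ : Type*} [Fintype κ] {L : κ → J → S →ₗ[ℝ] S'} (h : ∀ i, UO A A' m (L i)) :
    ∃ t : ℕ → ℝ, (∀ k, 0 ≤ t k) ∧ ∀ j i, Ord (A j) (A' j) m (L i j) t := by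
  choose c hc using h
  refine ⟨fun k => ∑ i, |c i k|, fun k => by positivity, fun j i => (hc i j).mono fun k => ?_⟩
  exact (le_abs_self _).trans
    (Finset.single_le_sum (f := fun i => |c i k|) (fun _ _ => abs_nonneg _) (Finset.mem_univ i))

theorem sum {κ : Type*} [Fintype κ] {L : κ → J → S →ₗ[ℝ] S'} (h : ∀ i, UO A A' m (L i)) :
    UO A A' m fun j => ∑ i, L i j :=
  let ⟨_, ht, h⟩ := unif h; ⟨_, fun j => Ord.sum ht (h j)⟩

end UO
end UO

variable {E : Type} [NormedAddCommGroup E] [NormedSpace ℝ E] [FiniteDimensional ℝ E]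
  [MeasurableSpace E] [BorelSpace E]
  {HM : Type} [TopologicalSpace HM] {I : ModelWithCorners ℝ E HM}
  {M : Type} [TopologicalSpace M] [ChartedSpace HM M] [IsManifold I ∞ M]
  [MeasurableSpace M] {ι : Type} [Fintype ι]
  {N N' N'' : Type} [NormedAddCommGroup N] [NormedSpace ℝ N] [NormedAddCommGroup N']
  [NormedSpace ℝ N'] [NormedAddCommGroup N''] [NormedSpace ℝ N'']
  {U V W : Type} [NormedAddCommGroup U] [InnerProductSpace ℝ U]
  [NormedAddCommGroup V] [InnerProductSpace ℝ V] [NormedAddCommGroup W] [InnerProductSpace ℝ W]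
  {J : Type*} {F : J → Pre I M ι}

/-- coefficients with bounds uniform in the family -/
def UB (F : J → Pre I M ι) (f : J → M → N) : Prop := ∃ C, ∀ j, (F j).CBs (f j) C

namespace UB
variable {f g : J → M → N}

theorem sm (h : UB F f) (j : J) : Sm I (f j) := let ⟨_, h⟩ := h; (h j).1

theorem const (c : N) : UB F fun _ _ => c :=
  ⟨fun _ => ‖c‖, fun _ => ⟨contMDiff_const, fun k => CB_const k c⟩⟩

theorem add (hf : UB F f) (hg : UB F g) : UB F fun j x => f j x + g j x :=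
  let ⟨_, h⟩ := hf; let ⟨_, h'⟩ := hg
  ⟨_, fun j => ⟨(h j).1.add (h' j).1, fun k => CB_add (h j).1 (h' j).1 ((h j).2 k) ((h' j).2 k)⟩⟩

theorem clm (L : N →L[ℝ] N') (hf : UB F f) : UB F fun j x => L (f j x) :=
  let ⟨_, h⟩ := hf
  ⟨_, fun j => ⟨L.contMDiff.comp (h j).1, fun k => CB_clm L (h j).1 ((h j).2 k)⟩⟩

theorem bil (B : N →L[ℝ] N' →L[ℝ] N'') {g : J → M → N'} (hf : UB F f) (hg : UB F g) :
    UB F fun j x => B (f j x) (g j x) :=
  let ⟨_, h⟩ := hf; let ⟨_, h'⟩ := hg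
  ⟨_, fun j => ⟨smooth_bil B (h j).1 (h' j).1, fun k =>
    CB_bil B (h j).1 (h' j).1 ((h j).2 k) ((h' j).2 k)⟩⟩

theorem neg (hf : UB F f) : UB F fun j x => -f j x := hf.clm (-ContinuousLinearMap.id ℝ N)

theorem sub (hf : UB F f) (hg : UB F g) : UB F fun j x => f j x - g j x := by
  simpa only [sub_eq_add_neg] using hf.add hg.neg

theorem D (hf : UB F f) (a : ι) : UB F fun j => (F j).D a (f j) :=
  let ⟨C, h⟩ := hf
  ⟨fun k => C (k + 1), fun j => ⟨(F j).sm_D (h j).1 a, fun k => CB_D ((h j).2 (k + 1)) a⟩⟩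

theorem sum {κ : Type*} [Fintype κ] {f : κ → J → M → N} (hf : ∀ i, UB F (f i)) :
    UB F fun j x => ∑ i, f i j x := by
  choose C hC using hf
  exact ⟨_, fun j => ⟨contMDiff_finsetSum fun i _ => (hC i j).1, fun k =>
    CB_sum Finset.univ (fun i _ => (hC i j).1) fun i _ => (hC i j).2 k⟩⟩

theorem comp {f : J → M → N' →L[ℝ] N''} {g : J → M → N →L[ℝ] N'} (hf : UB F f) (hg : UB F g) :
    UB F fun j x => (f j x).comp (g j x) := bil (ContinuousLinearMap.compL ℝ N N' N'') hf hg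

theorem smul {f : J → M → ℝ} (hf : UB F f) (hg : UB F g) : UB F fun j x => f j x • g j x :=
  bil (ContinuousLinearMap.lsmul ℝ ℝ) hf hg

theorem sc {f : J → M → ℝ} (hf : UB F f) : UB F fun j => sc V (f j) :=
  hf.clm (ContinuousLinearMap.lsmul ℝ ℝ : ℝ →L[ℝ] V →L[ℝ] V)

end UB

theorem CBs_mono {F : Pre I M ι} {f : M → N} {C C' : ℕ → ℝ} (h : F.CBs f C) (hC : ∀ k, C k ≤ C' k) :
    F.CBs f C' := ⟨h.1, fun k => CB_mono (h.2 k) (hC k)⟩

theorem UB.unif {κ : Type*} [Fintype κ] {f : κ → J → M → N} (h : ∀ i, UB F (f i)) :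
    ∃ C : ℕ → ℝ, ∀ j i, (F j).CBs (f i j) C := by
  choose c hc using h
  refine ⟨fun k => ∑ i, |c i k|, fun j i => CBs_mono (hc i j) fun k => ?_⟩
  exact (le_abs_self _).trans
    (Finset.single_le_sum (f := fun i => |c i k|) (fun _ _ => abs_nonneg _) (Finset.mem_univ i))

/-- a first order operator on test functions -/
def opT (F : Pre I M ι) (σ : ι → M → V →L[ℝ] W) (B : M → V →L[ℝ] W) (hσ : ∀ a, Sm I (σ a))
    (hB : Sm I B) : T I M V →ₗ[ℝ] T I M W := ∑ a, mul (σ a) (hσ a) ∘ₗ DT F a + mul B hB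

theorem opT_apply (F : Pre I M ι) {σ : ι → M → V →L[ℝ] W} {B : M → V →L[ℝ] W}
    (hσ : ∀ a, Sm I (σ a)) (hB : Sm I B) (u : T I M V) :
    opT F σ B hσ hB u = ∑ a, mul (σ a) (hσ a) (DT F a u) + mul B hB u := by
  simp only [opT, LinearMap.add_apply, LinearMap.sum_apply, LinearMap.comp_apply]

variable [T2Space M] [BorelSpace M]

theorem opT_val (F : Pre I M ι) {σ : ι → M → V →L[ℝ] W} {B : M → V →L[ℝ] W}
    (hσ : ∀ a, Sm I (σ a)) (hB : Sm I B) (u : T I M V) :
    (opT F σ B hσ hB u).1 = F.op σ B u.1 := by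
  funext x
  rw [opT_apply, Submodule.coe_add, Pi.add_apply, sum_val]
  rfl

/-- first order differential operators with uniformly bounded coefficients -/
def FO (F : J → Pre I M ι) (L : J → T I M V →ₗ[ℝ] T I M W) : Prop :=
  ∃ (σ : J → ι → M → V →L[ℝ] W) (B : J → M → V →L[ℝ] W), (∀ a, UB F fun j => σ j a) ∧ UB F B ∧
    ∀ j u x, (L j u).1 x = ∑ a, σ j a x ((F j).D a u.1 x) + B j x (u.1 x)

namespace FO
variable {L L' : J → T I M V →ₗ[ℝ] T I M W}

theorem congr (h : FO F L) (e : ∀ j u, L' j u = L j u) : FO F L' :=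
  let ⟨σ, B, h1, h2, h3⟩ := h; ⟨σ, B, h1, h2, fun j u x => by rw [e, h3]⟩

theorem op {σ : J → ι → M → V →L[ℝ] W} {B : J → M → V →L[ℝ] W} (hσ : ∀ a, UB F fun j => σ j a)
    (hB : UB F B) : FO F fun j => opT (F j) (σ j) (B j) (fun a => (hσ a).sm j) (hB.sm j) :=
  ⟨σ, B, hσ, hB, fun j u x => by rw [opT_val]; rfl⟩

theorem mul {B : J → M → V →L[ℝ] W} (hB : UB F B) : FO F fun j => mul (B j) (hB.sm j) :=
  ⟨fun _ _ _ => 0, B, fun _ => UB.const 0, hB, fun j u x => by simp⟩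

theorem D (a : ι) : FO F fun j => (DT (F j) a : T I M V →ₗ[ℝ] T I M V) := by
  classical
  refine ⟨fun _ b _ => if b = a then ContinuousLinearMap.id ℝ V else 0, fun _ _ => 0,
    fun _ => UB.const _, UB.const 0, fun j u x => ?_⟩
  rw [Finset.sum_eq_single a (fun b _ hb => by simp [hb]) (by simp)]
  simp

theorem add (h : FO F L) (h' : FO F L') : FO F fun j => L j + L' j := by
  obtain ⟨σ, B, h1, h2, h3⟩ := h
  obtain ⟨σ', B', h1', h2', h3'⟩ := h'
  refine ⟨fun j a x => σ j a x + σ' j a x, _, fun a => (h1 a).add (h1' a), h2.add h2',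
    fun j u x => ?_⟩
  simp only [LinearMap.add_apply, Submodule.coe_add, Pi.add_apply, h3, h3',
    _root_.add_apply, Finset.sum_add_distrib]
  abel

theorem lmul {f : J → M → W →L[ℝ] U} (hf : UB F f) (h : FO F L) :
    FO F fun j => Ell97.mul (f j) (hf.sm j) ∘ₗ L j := by
  obtain ⟨σ, B, h1, h2, h3⟩ := h
  refine ⟨fun j a x => (f j x).comp (σ j a x), _, fun a => hf.comp (h1 a), hf.comp h2,
    fun j u x => ?_⟩
  simp only [LinearMap.comp_apply, mul_val, h3, map_add, map_sum, ContinuousLinearMap.comp_apply]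

theorem rmul {f : J → M → U →L[ℝ] V} (h : FO F L) (hf : UB F f) :
    FO F fun j => L j ∘ₗ Ell97.mul (f j) (hf.sm j) := by
  obtain ⟨σ, B, h1, h2, h3⟩ := h
  refine ⟨fun j a x => (σ j a x).comp (f j x), _, fun a => (h1 a).comp hf,
    (UB.sum fun a => (h1 a).comp (hf.D a)).add (h2.comp hf), fun j u x => ?_⟩
  have e : ∀ a, (F j).D a (Ell97.mul (f j) (hf.sm j) u).1 x = _ :=
    fun a => D_app (F j) a (hf.sm j) u.2.1 x
  simp only [LinearMap.comp_apply, h3, e, mul_val, map_add, ContinuousLinearMap.comp_apply,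
    _root_.add_apply, _root_.sum_apply, Finset.sum_add_distrib]
  abel

theorem smul (r : ℝ) (h : FO F L) : FO F fun j => r • L j :=
  (h.lmul (UB.const (r • ContinuousLinearMap.id ℝ W))).congr fun _ _ => rfl

theorem neg (h : FO F L) : FO F fun j => -L j := (h.smul (-1)).congr fun j u => by simp

theorem sub (h : FO F L) (h' : FO F L') : FO F fun j => L j - L' j :=
  (h.add h'.neg).congr fun j u => by simp [sub_eq_add_neg]

theorem fsum {κ : Type*} (s : Finset κ) {L : κ → J → T I M V →ₗ[ℝ] T I M W}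
    (h : ∀ i, FO F (L i)) : FO F fun j => ∑ i ∈ s, L i j := by
  classical
  induction s using Finset.induction_on with
  | empty => exact (FO.mul (UB.const 0)).congr fun _ _ => rfl
  | insert a s ha ih => simpa only [Finset.sum_insert ha] using (h a).add ih

theorem sum {κ : Type*} [Fintype κ] {L : κ → J → T I M V →ₗ[ℝ] T I M W} (h : ∀ i, FO F (L i)) :
    FO F fun j => ∑ i, L i j := fsum _ h

end FO

variable [SecondCountableTopology M]

theorem UB.uo {f : J → M → V →L[ℝ] W} (h : UB F f) :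
    UO (fun j => scl V (F j)) (fun j => scl W (F j)) 0 fun j => mul (f j) (h.sm j) :=
  let ⟨_, h⟩ := h; ⟨_, fun j => ord_mul (h j)⟩

theorem FO.uo {L : J → T I M V →ₗ[ℝ] T I M W} (h : FO F L) :
    UO (fun j => scl V (F j)) (fun j => scl W (F j)) 1 L := by
  obtain ⟨σ, B, h1, h2, h3⟩ := h
  refine ((UO.sum fun a => (h1 a).uo.comp (UO.D _ a)).add (h2.uo.up zero_le_one)).congr
    fun j u => Subtype.ext (funext fun x => ?_)
  rw [h3, LinearMap.add_apply, Submodule.coe_add, Pi.add_apply, LinearMap.sum_apply, sum_val]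
  rfl

section Fr
variable {F : J → Fr I M ι} {C : ℕ → ℝ}

theorem fo_Ds (h : ∀ j, (F j).Tame C) (a : ι) :
    FO (fun j => (F j).toPre) fun j => (Ds (F j) a : T I M V →ₗ[ℝ] T I M V) :=
  (FO.D a).neg.sub (FO.mul (UB.sc ⟨C, fun j => (h j).dv a⟩))

theorem fo_Br (h : ∀ j, (F j).Tame C) (a b : ι) :
    FO (fun j => (F j).toPre) fun j => (Br (F j) a b : T I M V →ₗ[ℝ] T I M V) :=
  FO.sum fun l => (FO.D l).lmul (UB.sc ⟨C, fun j => (h j).c a b l⟩)

theorem uo_Tc (h : ∀ j, (F j).Tame C) (c : ι) :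
    UO (fun j => scl V (F j).toPre) (fun j => scl V (F j).toPre) 2 fun j =>
      lap (scl V (F j).toPre) (Ds (F j)) ∘ₗ (scl V (F j).toPre).D c -
        (scl V (F j).toPre).D c ∘ₗ lap (scl V (F j).toPre) (Ds (F j)) := by
  refine UO.congr (L := fun j => Tc (F j) c) (UO.sum fun a => ?_) fun j u => lap_comm (F j) c u
  exact ((fo_Ds h a).uo.comp (fo_Br h a c).uo).add
    (((FO.mul ((UB.sc ⟨C, fun j => (h j).dv a⟩).D c)).sub (fo_Br h a c)).uo.comp (FO.D a).uo)

theorem uo_lap (h : ∀ j, (F j).Tame C) :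
    UO (fun j => scl V (F j).toPre) (fun j => scl V (F j).toPre) 2 fun j =>
      lap (scl V (F j).toPre) (Ds (F j)) :=
  UO.sum fun a => (fo_Ds h a).uo.comp (FO.D a).uo

end Fr

/-- the Clifford relation turns `L* L` into the rough Laplacian -/
theorem cliff_alg {S : Type*} [AddCommGroup S] [Module ℝ S] (Q P : ι → ι → S →ₗ[ℝ] S)
    (p : S →ₗ[ℝ] S) (X Y : ι → ι → S) (hQ : ∀ a b v, Q a b v + Q b a v = (-2 : ℝ) • p (P a b v))
    (hX : ∀ a b, X a b = X b a + Y a b) (hP : ∀ b, ∑ a, P a b (X a b) = X b b) :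
    ∑ a, ∑ b, Q a b (X a b) = -∑ b, p (X b b) - (1 / 2 : ℝ) • ∑ a, ∑ b, Q b a (Y a b) := by
  have h1 : ∑ a, ∑ b, Q a b (X a b) = ∑ a, ∑ b, (Q b a (X a b) - Q b a (Y a b)) := by
    rw [Finset.sum_comm]
    exact Finset.sum_congr rfl fun a _ => Finset.sum_congr rfl fun b _ => by
      rw [hX a b, map_add, add_sub_cancel_right]
  have h2 : ∑ a, ∑ b, Q a b (X a b) + ∑ a, ∑ b, Q b a (X a b) = (-2 : ℝ) • ∑ b, p (X b b) := by
    simp only [← Finset.sum_add_distrib, hQ]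
    rw [Finset.sum_comm, Finset.smul_sum]
    exact Finset.sum_congr rfl fun b _ => by rw [← Finset.smul_sum, ← map_sum, hP]
  simp only [Finset.sum_sub_distrib] at h1
  linear_combination (norm := module) (1 / 2 : ℝ) • h1 + (1 / 2 : ℝ) • h2

end Crest.Agent.X212.Ell97
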