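import Crest.Agent.X212.Ell97.Est

/-! Sobolev level: injectivity of the inclusions, estimates, weak solutions and their regularity. -/

set_option autoImplicit false
set_option linter.unusedSectionVars false
noncomputable section
open scoped Manifold ContDiff Topology InnerProductSpace
open MeasureTheory Set Function Filter

namespace Crest.Agent.X212.Ell97
open An An.Pre Sob92

variable {E : Type} [NormedAddCommGroup E] [NormedSpace ℝ E] [FiniteDimensional ℝ E]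
  [MeasurableSpace E] [BorelSpace E]
  {HM : Type} [TopologicalSpace HM] {I : ModelWithCorners ℝ E HM}
  {M : Type} [TopologicalSpace M] [ChartedSpace HM M] [IsManifold I ∞ M]
  [MeasurableSpace M] {ι : Type} [Fintype ι]
  {U V W : Type} [NormedAddCommGroup U] [InnerProductSpace ℝ U]
  [NormedAddCommGroup V] [InnerProductSpace ℝ V] [NormedAddCommGroup W] [InnerProductSpace ℝ W]
  [T2Space M] [BorelSpace M]

theorem H_ext {F : Pre I M ι} {k : ℕ} {p : M → V →L[ℝ] V} {x y : F.H k p}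
    (h : ∀ φ, ⟪x, F.toH k p φ⟫_ℝ = ⟪y, F.toH k p φ⟫_ℝ) : x = y :=
  ext_inner_right ℝ fun z => H_eq (f := fun z => ⟪x, z⟫_ℝ) (g := fun z => ⟪y, z⟫_ℝ)
    (by fun_prop) (by fun_prop) h z

theorem ip_to_zero (F : Fr I M ι) (k : ℕ) :
    ∀ φ : T I M V, ∃ ψ : T I M V, ∀ u : T I M V, F.ip k u.1 φ.1 = (scl V F.toPre).ip u ψ := by
  induction k with
  | zero => exact fun φ => ⟨φ, fun u => (scl_ip u φ).symm⟩
  | succ k ih =>
    intro φ
    choose ψ hψ using fun a => ih (DT F.toPre a φ)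
    refine ⟨φ + ∑ a, Ds F a (ψ a), fun u => ?_⟩
    rw [map_add, map_sum, Pre.ip, scl_ip]
    congr 1
    exact Finset.sum_congr rfl fun a _ => (hψ a (DT F.toPre a u)).trans (ip_D F a u _)

/-- **The inclusions are injective.** -/
theorem incl_inj (F : Fr I M ι) {k j : ℕ} (h : j ≤ k) (p : M → V →L[ℝ] V) :
    Injective (F.incl k j p) := by
  refine (injective_iff_map_eq_zero _).2 fun x hx => ?_
  have h0 : F.incl k 0 _ (fg F.toPre k p x) = 0 := by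
    rw [Rep_incl rep_fg rep_fg (Nat.zero_le k) (Nat.zero_le k), ← incl_incl h (Nat.zero_le j), hx,
      map_zero, map_zero]
  refine fg_injective (H_ext fun φ => ?_)
  obtain ⟨ψ, hψ⟩ := ip_to_zero F k φ
  have h1 := H_eq (F := F.toPre) (f := fun y => ⟪y, F.toH k _ φ⟫_ℝ)
    (g := fun y => ⟪F.incl k 0 (triv M V) y, F.toH 0 _ ψ⟫_ℝ) (by fun_prop) (by fun_prop)
    (fun u => by rw [incl_toH (Nat.zero_le k), inner_toH]; exact hψ u) (fg F.toPre k p x)
  simp only [h1, h0, map_zero, inner_zero_left]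

theorem memLp_T (F : Pre I M ι) (u : T I M V) : MemLp u.1 2 F.μ :=
  u.2.1.continuous.memLp_of_hasCompactSupport u.2.2.1

/-- the class of a test function -/
def toLp (F : Pre I M ι) : T I M V →ₗ[ℝ] Lp V 2 F.μ where
  toFun u := (memLp_T F u).toLp u.1
  map_add' u v := MemLp.toLp_add (memLp_T F u) (memLp_T F v)
  map_smul' r u := MemLp.toLp_const_smul r (memLp_T F u)

theorem inner_toLp (F : Pre I M ι) (y : Lp V 2 F.μ) (u : T I M V) :
    ⟪y, toLp F u⟫_ℝ = ∫ x, ⟪y x, u.1 x⟫_ℝ ∂F.μ := by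
  rw [L2.inner_def]
  refine integral_congr_ae ?_
  filter_upwards [(memLp_T F u).coeFn_toLp] with x hx
  exact congrArg _ hx

theorem toLp_inner (F : Pre I M ι) (u v : T I M V) : ⟪toLp F u, toLp F v⟫_ℝ = F.ip 0 u.1 v.1 := by
  rw [inner_toLp]
  refine integral_congr_ae ?_
  filter_upwards [(memLp_T F u).coeFn_toLp] with x hx
  exact congrArg (fun z => ⟪z, v.1 x⟫_ℝ) hx

/-- every element of `H 0` is represented by an `L²` function -/
theorem exists_L2 [FiniteDimensional ℝ V] (F : Pre I M ι) (y : F.H 0 (triv M V)) :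
    ∃ u : M → V, MemLp u 2 F.μ ∧ ∀ φ : T I M V, ⟪y, F.toH 0 _ φ⟫_ℝ = ∫ x, ⟪u x, φ.1 x⟫_ℝ ∂F.μ := by
  have := FiniteDimensional.complete ℝ V
  obtain ⟨A, hA, -⟩ := exists_ext (F := F) (k := 0) (toLp (V := V) F) zero_le_one fun u => by
    rw [norm_eq_sqrt_real_inner, toLp_inner, one_mul, Pre.nrm]
  refine ⟨A y, Lp.memLp _, fun φ => ?_⟩
  rw [← inner_toLp]
  exact H_eq (f := fun y => ⟪y, F.toH 0 _ φ⟫_ℝ) (g := fun y => ⟪A y, toLp F φ⟫_ℝ) (by fun_prop)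
    (by fun_prop) (fun u => by rw [hA, toLp_inner, inner_toH]) y

variable (V) in
/-- interior regularity for weak solutions of `Δ u = (first order) u + f` -/
def Reg (F : Fr I M ι) : Prop :=
  ∀ (u : M → V) (ua : ι → M → V) (σ : ι → M → V →L[ℝ] V) (B : M → V →L[ℝ] V) (f : M → V),
    MemLp u 2 F.μ → (∀ a, MemLp (ua a) 2 F.μ) → (∀ a, Sm I (σ a)) → Sm I B → Sm I f →
    (∀ a (φ : M → V), Sm I φ → HasCompactSupport φ →
      ∫ x, ⟪ua a x, φ x⟫_ℝ ∂F.μ = ∫ x, ⟪u x, -F.D a φ x - F.dv a x • φ x⟫_ℝ ∂F.μ) →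
    (∀ φ : M → V, Sm I φ → HasCompactSupport φ →
      ∑ a, ∫ x, ⟪ua a x, F.D a φ x⟫_ℝ ∂F.μ = ∫ x, ⟪f x, φ x⟫_ℝ ∂F.μ +
        ∑ a, ∫ x, ⟪ua a x, σ a x (φ x)⟫_ℝ ∂F.μ + ∫ x, ⟪u x, B x (φ x)⟫_ℝ ∂F.μ) →
    ∃ w : M → V, Sm I w ∧ u =ᵐ[F.μ] w

variable [SecondCountableTopology M]
  {F : Fr I M ι} {A : Op M ι V W} {s : ι → M → W →L[ℝ] V} {B' : M → W →L[ℝ] V} {C : ℕ → ℝ}

theorem H_toH (h : A.Good F C) (k : ℕ) (u : Sec I A.p) :
    A.H F k (F.toH (k + 1) A.p u) = F.toH k A.q (LS h u) := RepT_toH (rep_OpH h k).1 u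

theorem Du.adjH (h : Du F A s B' C) (x : F.H 1 A.p) (y : F.H 1 A.q) :
    ⟪A.H F 0 x, F.incl 1 0 A.q y⟫_ℝ = ⟪F.incl 1 0 A.p x, (dual A s B').H F 0 y⟫_ℝ := by
  induction x, y using H_ind₂ with
  | hP => exact isClosed_eq (by fun_prop) (by fun_prop)
  | h u w =>
    rw [H_toH h.g, H_toH h.g', incl_toH zero_le_one, incl_toH zero_le_one, inner_toH, inner_toH]
    exact h.adj u w

variable (F A s B') in
/-- `1 + L* L` -/
def QH (k : ℕ) : F.H (k + 2) A.p →L[ℝ] F.H k A.p :=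
  (F.incl (k + 1) k A.p).comp (F.incl (k + 2) (k + 1) A.p) +
    ((dual A s B').H F k).comp (A.H F (k + 1))

/-- `1 + L* L` on sections -/
def Du.QS (h : Du F A s B' C) (u : Sec I A.p) : Sec I A.p := u + LS h.g' (LS h.g u)

theorem Du.QH_toH (h : Du F A s B' C) (k : ℕ) (u : Sec I A.p) :
    QH F A s B' k (F.toH (k + 2) A.p u) = F.toH k A.p (h.QS u) := by
  rw [QH, _root_.add_apply, ContinuousLinearMap.comp_apply, ContinuousLinearMap.comp_apply,
    incl_toH (by omega), incl_toH (by omega), H_toH h.g, H_toH h.g', Du.QS, map_add]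

/-- **Estimates on the Sobolev spaces**, uniform in the family. -/
theorem estH_fam {J : Type*} {F : J → Fr I M ι} {A : J → Op M ι V W}
    {s : J → ι → M → W →L[ℝ] V} {B' : J → M → W →L[ℝ] V}
    (h : ∀ j, Du (F j) (A j) (s j) (B' j) C) :
    ∃ K : ℕ → ℝ, (∀ k, 0 ≤ K k) ∧ ∀ j k,
      (∀ x : (F j).H (k + 1) (A j).p,
        ‖x‖ ≤ K k * (‖(A j).H (F j) k x‖ + ‖(F j).incl (k + 1) 0 (A j).p x‖)) ∧
      ∀ x : (F j).H (k + 2) (A j).p, ‖x‖ ≤ K k * ‖QH (F j) (A j) (s j) (B' j) k x‖ := by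
  obtain ⟨K, hK, h1⟩ := est_fam h
  refine ⟨K, hK, fun j k => ⟨fun x => ?_, fun x => ?_⟩⟩
  · induction x using H_ind with
    | hP => exact isClosed_le (by fun_prop) (by fun_prop)
    | h u =>
      rw [H_toH (h j).g, incl_toH (Nat.zero_le _), norm_toH, norm_toH, norm_toH]
      exact (h1 j k u).1
  · induction x using H_ind with
    | hP => exact isClosed_le (by fun_prop) (by fun_prop)
    | h u =>
      rw [(h j).QH_toH, norm_toH, norm_toH]
      exact (h1 j k u).2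

theorem Du.estH (h : Du F A s B' C) : ∃ K : ℕ → ℝ, (∀ k, 0 ≤ K k) ∧ ∀ k,
    (∀ x : F.H (k + 1) A.p, ‖x‖ ≤ K k * (‖A.H F k x‖ + ‖F.incl (k + 1) 0 A.p x‖)) ∧
      ∀ x : F.H (k + 2) A.p, ‖x‖ ≤ K k * ‖QH F A s B' k x‖ :=
  let ⟨K, hK, h1⟩ := estH_fam (J := Unit) fun _ => h; ⟨K, hK, h1 ()⟩

variable (F A) in
/-- the Dirichlet form -/
def bt : F.H 1 A.p →L[ℝ] F.H 1 A.p →L[ℝ] ℝ :=
  (innerSL ℝ : F.H 0 A.p →L[ℝ] F.H 0 A.p →L[ℝ] ℝ).bilinearComp (F.incl 1 0 A.p) (F.incl 1 0 A.p) +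
    (innerSL ℝ : F.H 0 A.q →L[ℝ] F.H 0 A.q →L[ℝ] ℝ).bilinearComp (A.H F 0) (A.H F 0)

theorem bt_apply (x y : F.H 1 A.p) : bt F A x y =
    ⟪F.incl 1 0 A.p x, F.incl 1 0 A.p y⟫_ℝ + ⟪A.H F 0 x, A.H F 0 y⟫_ℝ := rfl

theorem Du.bt_toH (h : Du F A s B' C) (u v : Sec I A.p) :
    bt F A (F.toH 1 A.p u) (F.toH 1 A.p v) = ⟪F.toH 0 A.p (h.QS u), F.toH 0 A.p v⟫_ℝ := by
  rw [bt_apply, Du.QS, map_add, inner_add_left, incl_toH zero_le_one, incl_toH zero_le_one,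
    H_toH h.g 0 u, ← incl_toH zero_le_one (LS h.g u), real_inner_comm (A.H F 0 _), h.adjH,
    incl_toH zero_le_one]
  congr 1
  rw [real_inner_comm]
  exact congrArg (fun z => ⟪z, F.toH 0 A.p v⟫_ℝ) (H_toH h.g' 0 (LS h.g u))

theorem Du.coercive (h : Du F A s B' C) : IsCoercive (bt F A) := by
  obtain ⟨K, hK, h1⟩ := h.estH
  refine ⟨(2 * K 0 ^ 2 + 1)⁻¹, by positivity, fun x => ?_⟩
  have h2 := (h1 0).1 x
  rw [bt_apply, real_inner_self_eq_norm_sq, real_inner_self_eq_norm_sq, mul_assoc,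
    inv_mul_le_iff₀ (by positivity)]
  have h3 := mul_self_le_mul_self (norm_nonneg x) h2
  nlinarith [mul_nonneg (sq_nonneg (K 0)) (sq_nonneg (‖A.H F 0 x‖ - ‖F.incl 1 0 A.p x‖))]

/-- **Lax-Milgram** -/
theorem Du.weak (h : Du F A s B' C) (g : F.H 0 A.p) :
    ∃ x, ∀ y, bt F A x y = ⟪g, F.incl 1 0 A.p y⟫_ℝ := by
  refine ⟨h.coercive.continuousLinearEquivOfBilin.symm ((F.incl 1 0 A.p).adjoint g), fun y => ?_⟩
  rw [← h.coercive.continuousLinearEquivOfBilin_apply, ContinuousLinearEquiv.apply_symm_apply,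
    ContinuousLinearMap.adjoint_inner_left]

theorem Du.bt_incl (h : Du F A s B' C) (k : ℕ) (x : F.H (k + 2) A.p) (y : F.H 1 A.p) :
    bt F A (F.incl (k + 2) 1 A.p x) y = ⟪F.incl k 0 A.p (QH F A s B' k x), F.incl 1 0 A.p y⟫_ℝ := by
  induction x, y using H_ind₂ with
  | hP => exact isClosed_eq (by fun_prop) (by fun_prop)
  | h u v =>
    rw [incl_toH (by omega), h.bt_toH, h.QH_toH, incl_toH (Nat.zero_le k), incl_toH zero_le_one]

variable [FiniteDimensional ℝ V]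

/-- the weak equation against all test functions -/
theorem Du.weak_eq (h : Du F A s B' C) : ∃ (σ : ι → M → V →L[ℝ] V) (B : M → V →L[ℝ] V)
    (hσ : ∀ a, Sm I (σ a)) (hB : Sm I B), ∀ (x : F.H 1 A.p) (φ : T I M V),
    ∑ a, ⟪DH F.toPre 0 A.p a x, F.toH 0 _ (DT F.toPre a φ)⟫_ℝ =
      bt F A x (F.toH 1 A.p (prj h.g.p φ)) +
      ∑ a, ⟪DH F.toPre 0 A.p a x, F.toH 0 _ (mul (σ a) (hσ a) φ)⟫_ℝ +
      ⟪fg F.toPre 0 A.p (F.incl 1 0 A.p x), F.toH 0 _ (mul B hB φ)⟫_ℝ := by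
  obtain ⟨σ, B, hσ, hB, hR⟩ := fo_R (J := Unit) fun _ => h
  have h1 : ∀ a, Sm I fun x => Op.tr (σ () a x) := fun a => ((hσ a).clm (trL V V)).sm ()
  have h2 : Sm I fun x => Op.tr (B () x) := (hB.clm (trL V V)).sm ()
  refine ⟨_, fun x => Op.tr (B () x) - A.p x, h1, h2.sub h.g.p.cb.1, fun x φ => ?_⟩
  induction x using H_ind with
  | hP => exact isClosed_eq (by fun_prop) (by fun_prop)
  | h u =>
    have e1 : ∀ a, DH F.toPre 0 A.p a (F.toH 1 A.p u) = F.toH 0 _ (DT F.toPre a (toT _ u)) :=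
      fun a => RepT_toH (rep_DH a) u
    have e2 : fg F.toPre 0 A.p (F.toH 0 A.p u) = F.toH 0 _ (toT _ u) := RepT_toH rep_fg u
    have e3 : h.R (toT _ u) = opT F.toPre (σ ()) (B ()) (fun a => (hσ a).sm ()) (hB.sm ())
        (toT _ u) := Subtype.ext (funext fun x => by rw [hR () _ x, opT_val]; rfl)
    have e4 := ip_lap (ip_D F) (toT _ u) φ
    have e5 : mul (fun x => Op.tr (B () x) - A.p x) (h2.sub h.g.p.cb.1) φ =
        mul _ h2 φ - mul A.p h.g.p.cb.1 φ := rfl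
    rw [h.lap_eq, map_add, LinearMap.add_apply, (scl V F.toPre).symm _ φ, ← h.adjT, e3, opT_apply,
      map_add, map_sum, LinearMap.add_apply, LinearMap.sum_apply,
      ip_mul (hB.sm ()) h2 fun x v w => (inner_tr _ v w).symm] at e4
    simp only [fun a => ip_mul (F := F.toPre) ((hσ a).sm ()) (h1 a)
      fun x v w => (inner_tr _ v w).symm, LinearMap.comp_apply, mul_toT] at e4
    have e6 : bt F A (F.toH 1 A.p u) (F.toH 1 A.p (prj h.g.p φ)) =
        (scl V F.toPre).ip (toT _ u) (mul A.p h.g.p.cb.1 φ) +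
        (scl W F.toPre).ip (LT h.g (mul A.p h.g.p.cb.1 φ)) (LT h.g (toT _ u)) := by
      rw [bt_apply, H_toH h.g, H_toH h.g, incl_toH zero_le_one, incl_toH zero_le_one, inner_toH,
        inner_toH, scl_ip, scl_ip, LT_val, LT_val, F.ip_comm 0 (LS h.g u).1]
      rfl
    simp only [e1, incl_toH zero_le_one, e2, e5, e6, map_sub, inner_sub_right]
    change ∑ a, (scl V F.toPre).ip _ _ = _ + ∑ a, (scl V F.toPre).ip _ _ +
      ((scl V F.toPre).ip _ _ - (scl V F.toPre).ip _ _)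
    simp only [scl_D] at e4
    linarith

/-- the section `χ u` -/
def cut {p : M → V →L[ℝ] V} {χ : M → ℝ} (hχ : Sm I χ) (u : Sec I p) : Sec I p :=
  ⟨fun x => χ x • u.1 x, hχ.smul u.2.1, u.2.2.1.mono fun x hx h => hx (by simp [h]),
    fun x => (map_smul (p x) _ _).trans (by rw [u.2.2.2 x])⟩

theorem smulH_toH {p : M → V →L[ℝ] V} {χ : M → ℝ} {C' : ℕ → ℝ} (hχ : F.CBs χ C') (k : ℕ)
    (u : Sec I p) : smulH F.toPre k p χ (F.toH k p u) = F.toH k p (cut hχ.1 u) :=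
  RepT_toH (rep_smulH ⟨_, hχ⟩) u

/-- **Weak solutions are locally smooth.** -/
theorem Du.loc_smooth (h : Du F A s B' C) (hr : Reg V F) {x : F.H 1 A.p} {f : Sec I A.p}
    (hx : ∀ y, bt F A x y = ⟪F.toH 0 A.p f, F.incl 1 0 A.p y⟫_ℝ) {χ : M → ℝ} {C' : ℕ → ℝ}
    (hχ : F.CBs χ C') (hc : HasCompactSupport χ) :
    ∃ v : Sec I A.p, smulH F.toPre 1 A.p χ x = F.toH 1 A.p v := by
  obtain ⟨σ, B, hσ, hB, he⟩ := h.weak_eq
  obtain ⟨u, hu, hu'⟩ := exists_L2 F.toPre (fg F.toPre 0 A.p (F.incl 1 0 A.p x))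
  choose ua hua hua' using fun a => exists_L2 F.toPre (DH F.toPre 0 A.p a x)
  obtain ⟨w, hw, huw⟩ := hr u ua σ B f.1 hu hua hσ hB f.2.1 (fun a φ h1 h2 => by
    refine (hua' a (tst φ h1 h2)).symm.trans (Eq.trans ?_ (hu' (Ds F a (tst φ h1 h2))))
    clear hx hu' hua'
    induction x using H_ind with
    | hP => exact isClosed_eq (by fun_prop) (by fun_prop)
    | h v =>
      rw [RepT_toH (rep_DH a), incl_toH zero_le_one, RepT_toH rep_fg]
      exact ip_D F a (toT _ v) (tst φ h1 h2)) (fun φ h1 h2 => by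
    have h3 := he x (tst φ h1 h2)
    rw [hx, incl_toH zero_le_one, inner_toH] at h3
    simp only [hua', hu'] at h3
    refine h3.trans ?_
    congr 2
    refine integral_congr_ae (.of_forall fun y => ?_)
    change ⟪f.1 y, A.p y (φ y)⟫_ℝ = ⟪f.1 y, φ y⟫_ℝ
    rw [← h.g.p.symm, f.2.2.2 y])
  refine ⟨prj h.g.p (tst (fun y => χ y • w y) (hχ.1.smul hw) hc.smul_right),
    incl_inj F zero_le_one _ (H_ext fun φ => ?_)⟩
  have e1 : ∀ z : F.H 1 A.p, ⟪F.incl 1 0 A.p (smulH F.toPre 1 A.p χ z), F.toH 0 A.p φ⟫_ℝ =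
      ⟪fg F.toPre 0 A.p (F.incl 1 0 A.p z), F.toH 0 _ (toT _ (cut hχ.1 φ))⟫_ℝ := fun z => by
    induction z using H_ind with
    | hP => exact isClosed_eq (by fun_prop) (by fun_prop)
    | h v =>
      rw [smulH_toH hχ, incl_toH zero_le_one, incl_toH zero_le_one, RepT_toH rep_fg, inner_toH,
        inner_toH]
      simp only [Pre.ip, cut, toT_val, id, real_inner_smul_left, real_inner_smul_right]
  rw [e1, hu', incl_toH zero_le_one, inner_toH]
  refine integral_congr_ae ?_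
  filter_upwards [huw] with y hy
  change ⟪u y, χ y • φ.1 y⟫_ℝ = ⟪A.p y (χ y • w y), φ.1 y⟫_ℝ
  rw [h.g.p.symm, φ.2.2.2 y, hy, real_inner_smul_left, real_inner_smul_right]

end Crest.Agent.X212.Ell97
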