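import Crest.Agent.X212.Fred93.Cpt

/-! Abstract Fredholm theory on a pair of Hilbert scales: regularity, weak kernel, range,
Fredholm property and index (independent of the level). -/

set_option autoImplicit false
set_option linter.unusedSectionVars false
open Function Filter Topology Module
open scoped RealInnerProductSpace

noncomputable section
namespace Crest.Agent.X212.Ell97

/-- Two Hilbert scales with a first order operator `L` and its formal adjoint; `1 + L* L` is onto. -/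
structure Half (X Y : ℕ → Type*) [∀ k, NormedAddCommGroup (X k)] [∀ k, InnerProductSpace ℝ (X k)]
    [∀ k, NormedAddCommGroup (Y k)] [∀ k, InnerProductSpace ℝ (Y k)] where
  i : ∀ k, X (k + 1) →L[ℝ] X k
  j : ∀ k, Y (k + 1) →L[ℝ] Y k
  L : ∀ k, X (k + 1) →L[ℝ] Y k
  Ls : ∀ k, Y (k + 1) →L[ℝ] X k
  i_inj : ∀ k, Injective (i k)
  j_inj : ∀ k, Injective (j k)
  Li : ∀ k u, j k (L (k + 1) u) = L k (i (k + 1) u)
  Lsj : ∀ k v, i k (Ls (k + 1) v) = Ls k (j (k + 1) v)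
  adj : ∀ u v, ⟪L 0 u, j 0 v⟫ = ⟪i 0 u, Ls 0 v⟫
  surjX : ∀ k f, ∃ u, i k (i (k + 1) u) + Ls k (L (k + 1) u) = f

/-- Both `1 + L* L` and `1 + L L*` are onto. -/
structure Pair (X Y : ℕ → Type*) [∀ k, NormedAddCommGroup (X k)] [∀ k, InnerProductSpace ℝ (X k)]
    [∀ k, NormedAddCommGroup (Y k)] [∀ k, InnerProductSpace ℝ (Y k)] extends Half X Y where
  surjY : ∀ k f, ∃ v, j k (j (k + 1) v) + L k (Ls (k + 1) v) = f

variable {X Y : ℕ → Type*} [∀ k, NormedAddCommGroup (X k)] [∀ k, InnerProductSpace ℝ (X k)]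
  [∀ k, NormedAddCommGroup (Y k)] [∀ k, InnerProductSpace ℝ (Y k)]

/-- iterated inclusion into level `l` -/
def dn {X : ℕ → Type*} [∀ k, NormedAddCommGroup (X k)] [∀ k, NormedSpace ℝ (X k)]
    (i : ∀ k, X (k + 1) →L[ℝ] X k) (l : ℕ) : ∀ k, X (l + k) →L[ℝ] X l
  | 0 => ContinuousLinearMap.id ℝ _
  | k + 1 => (dn i l k).comp (i (l + k))

/-- inclusion into level `0` -/
def dn0 {X : ℕ → Type*} [∀ k, NormedAddCommGroup (X k)] [∀ k, NormedSpace ℝ (X k)]
    (i : ∀ k, X (k + 1) →L[ℝ] X k) : ∀ k, X k →L[ℝ] X 0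
  | 0 => ContinuousLinearMap.id ℝ _
  | k + 1 => (dn0 i k).comp (i k)

/-- inclusion into level `1` -/
def dn1 {X : ℕ → Type*} [∀ k, NormedAddCommGroup (X k)] [∀ k, NormedSpace ℝ (X k)]
    (i : ∀ k, X (k + 1) →L[ℝ] X k) : ∀ k, X (k + 1) →L[ℝ] X 1
  | 0 => ContinuousLinearMap.id ℝ _
  | k + 1 => (dn1 i k).comp (i (k + 1))

section
variable {i : ∀ k, X (k + 1) →L[ℝ] X k}

@[simp] theorem dn0_zero (u : X 0) : dn0 i 0 u = u := rfl
theorem dn0_succ (k : ℕ) (u : X (k + 1)) : dn0 i (k + 1) u = dn0 i k (i k u) := rfl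
@[simp] theorem dn1_zero (u : X 1) : dn1 i 0 u = u := rfl
theorem dn1_succ (k : ℕ) (u : X (k + 2)) : dn1 i (k + 1) u = dn1 i k (i (k + 1) u) := rfl

theorem i_dn1 : ∀ (k : ℕ) (u : X (k + 1)), i 0 (dn1 i k u) = dn0 i (k + 1) u
  | 0, _ => rfl
  | k + 1, u => by rw [dn1_succ, i_dn1 k, dn0_succ (k + 1)]

theorem dn0_inj (h : ∀ k, Injective (i k)) : ∀ k, Injective (dn0 i k)
  | 0 => injective_id
  | k + 1 => (dn0_inj h k).comp (h k)

theorem dn1_inj (h : ∀ k, Injective (i k)) : ∀ k, Injective (dn1 i k)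
  | 0 => injective_id
  | k + 1 => (dn1_inj h k).comp (h (k + 1))

end

namespace Half
variable (P : Half X Y)

theorem L_dn1 : ∀ (k : ℕ) (u : X (k + 1)), P.L 0 (dn1 P.i k u) = dn0 P.j k (P.L k u)
  | 0, _ => rfl
  | k + 1, u => by rw [dn1_succ, L_dn1 k, dn0_succ, P.Li]

theorem Ls_dn1 : ∀ (k : ℕ) (u : Y (k + 1)), P.Ls 0 (dn1 P.j k u) = dn0 P.i k (P.Ls k u)
  | 0, _ => rfl
  | k + 1, u => by rw [dn1_succ, Ls_dn1 k, dn0_succ, P.Lsj]

theorem adjk (k l : ℕ) (u : X (k + 1)) (v : Y (l + 1)) :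
    ⟪dn0 P.j k (P.L k u), dn0 P.j (l + 1) v⟫ = ⟪dn0 P.i (k + 1) u, dn0 P.i l (P.Ls l v)⟫ := by
  rw [← P.L_dn1, ← i_dn1, P.adj, i_dn1]
  exact congrArg _ (P.Ls_dn1 l v)

theorem eq_zero_of {k : ℕ} {z : X (k + 1)} {w : Y (k + 1)} (h1 : P.j k w = P.L k z)
    (h2 : P.i k z + P.Ls k w = 0) : z = 0 := by
  have h3 := P.adjk k k z w
  rw [dn0_succ, h1, eq_neg_of_add_eq_zero_right h2, map_neg, inner_neg_right, ← dn0_succ] at h3
  have h4 := real_inner_self_nonneg (x := dn0 P.j k (P.L k z))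
  have h5 : ⟪dn0 P.i (k + 1) z, dn0 P.i (k + 1) z⟫ ≤ 0 := by linarith
  exact dn0_inj P.i_inj (k + 1) (by rw [real_inner_self_nonpos.1 h5, map_zero])

/-- **Regularity**: `L u ∈ Y (k+1)` implies `u ∈ X (k+2)`. -/
theorem reg {k : ℕ} {u : X (k + 1)} {w : Y (k + 1)} (h : P.L k u = P.j k w) :
    ∃ u', P.i (k + 1) u' = u ∧ P.L (k + 1) u' = w := by
  obtain ⟨u', hu'⟩ := P.surjX k (P.i k u + P.Ls k w)
  have h1 : u - P.i (k + 1) u' = 0 := by
    refine P.eq_zero_of (w := w - P.L (k + 1) u') (by rw [map_sub, map_sub, P.Li, h]) ?_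
    rw [map_sub, map_sub, sub_add_sub_comm, hu', sub_self]
  have h2 : P.i (k + 1) u' = u := (sub_eq_zero.1 h1).symm
  exact ⟨u', h2, P.j_inj k (by rw [P.Li, h2, h])⟩

theorem reg_all (k : ℕ) {u : X 1} : ∀ {y : Y k}, P.L 0 u = dn0 P.j k y →
    ∃ u', dn1 P.i k u' = u ∧ P.L k u' = y := by
  induction k with
  | zero => exact fun h => ⟨u, rfl, h⟩
  | succ k ih =>
    intro y h
    obtain ⟨u', h1, h2⟩ := ih (y := P.j k y) h
    obtain ⟨u'', h3, h4⟩ := P.reg h2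
    exact ⟨u'', by rw [dn1_succ, h3, h1], h4⟩

/-- The operator `1 + L* L`. -/
def Q (k : ℕ) : X (k + 2) →L[ℝ] X k := (P.i k).comp (P.i (k + 1)) + (P.Ls k).comp (P.L (k + 1))

theorem Q_apply (k : ℕ) (u : X (k + 2)) :
    P.Q k u = P.i k (P.i (k + 1) u) + P.Ls k (P.L (k + 1) u) := rfl

theorem Q_bij (k : ℕ) : Bijective (P.Q k) := by
  refine ⟨(injective_iff_map_eq_zero _).2 fun u hu => ?_, P.surjX k⟩
  exact P.i_inj _ ((P.eq_zero_of (P.Li k u) hu).trans (map_zero _).symm)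

theorem i_Q (k : ℕ) (u : X (k + 3)) : P.i k (P.Q (k + 1) u) = P.Q k (P.i (k + 2) u) := by
  rw [Q_apply, Q_apply, map_add, P.Lsj, P.Li]

theorem ker_up (k : ℕ) {u : X 1} (h : P.L 0 u = 0) : ∃ u', dn1 P.i k u' = u ∧ P.L k u' = 0 :=
  P.reg_all k (by rw [h, map_zero])

/-- The kernels at all levels are isomorphic. -/
def kerEquiv (k : ℕ) : (P.L k).ker ≃ₗ[ℝ] (P.L 0).ker :=
  LinearEquiv.ofBijective
    ((dn1 P.i k).toLinearMap.restrict (p := (P.L k).ker) (q := (P.L 0).ker) fun u hu => by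
      have h : P.L k u = 0 := hu
      show P.L 0 (dn1 P.i k u) = 0
      rw [P.L_dn1, h, map_zero])
    ⟨fun u v h => Subtype.ext (dn1_inj P.i_inj k (congrArg Subtype.val h)), fun u => by
      obtain ⟨u', h1, h2⟩ := P.ker_up k u.2
      exact ⟨⟨u', h2⟩, Subtype.ext h1⟩⟩

variable [∀ k, CompleteSpace (X k)] [∀ k, CompleteSpace (Y k)]

/-- The resolvent `(1 + L* L)⁻¹`. -/
def G (k : ℕ) : X k →L[ℝ] X (k + 2) :=
  (ContinuousLinearEquiv.ofBijective (P.Q k) (LinearMap.ker_eq_bot.2 (P.Q_bij k).1)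
    (LinearMap.range_eq_top.2 (P.Q_bij k).2)).symm

theorem Q_G (k : ℕ) (f : X k) : P.Q k (P.G k f) = f :=
  (ContinuousLinearEquiv.ofBijective (P.Q k) _ _).apply_symm_apply f

theorem G_Q (k : ℕ) (u : X (k + 2)) : P.G k (P.Q k u) = u := (P.Q_bij k).1 (P.Q_G k _)

theorem G_i (k : ℕ) (f : X (k + 1)) : P.G k (P.i k f) = P.i (k + 2) (P.G (k + 1) f) :=
  (P.Q_bij k).1 (by rw [Q_G, ← i_Q, Q_G])

/-- `L* L` -/
def LL (k : ℕ) : X (k + 2) →L[ℝ] X k := (P.Ls k).comp (P.L (k + 1))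

omit [∀ k, CompleteSpace (X k)] [∀ k, CompleteSpace (Y k)] in
theorem LL_eq_zero {k : ℕ} {u : X (k + 2)} : P.LL k u = 0 ↔ P.L (k + 1) u = 0 := by
  refine ⟨fun h => ?_, fun h => by simp [LL, h]⟩
  have h1 := P.adjk (k + 1) k u (P.L (k + 1) u)
  rw [show P.Ls k (P.L (k + 1) u) = 0 from h, map_zero, inner_zero_right, inner_self_eq_zero] at h1
  exact dn0_inj P.j_inj (k + 1) (h1.trans (map_zero _).symm)

/-- With compact inclusions `L* L` is Fredholm of index zero. -/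
theorem fr_LL (k : ℕ) (hi : IsCompactOperator (P.i k)) : Fred93.Fr (P.LL k) 0 := by
  have h1 : IsCompactOperator (-((P.i k).comp (P.i (k + 1)))) := (hi.comp_clm (P.i (k + 1))).neg
  refine ((Fred93.Fr.of_bijective (P.Q_bij k)).add_compact h1).congr fun u => ?_
  simp [LL, Q_apply]

theorem LL_bij (k : ℕ) (hi : IsCompactOperator (P.i k)) (h0 : Injective (P.L (k + 1))) :
    Bijective (P.LL k) := by
  have h : Injective (P.LL k) := (injective_iff_map_eq_zero _).2 fun u hu =>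
    h0 ((P.LL_eq_zero.1 hu).trans (map_zero _).symm)
  exact ⟨h, (P.fr_LL k hi).surj_of_inj h⟩

/-- The resolvent on the lowest level. -/
def G0 : X 0 →L[ℝ] X 0 := (P.i 0).comp ((P.i 1).comp (P.G 0))

omit [∀ k, CompleteSpace (X k)] [∀ k, CompleteSpace (Y k)] in
theorem inner_Q (u v : X 2) : ⟪P.Q 0 u, P.i 0 (P.i 1 v)⟫ =
    ⟪P.i 0 (P.i 1 u), P.i 0 (P.i 1 v)⟫ + ⟪P.L 0 (P.i 1 u), P.L 0 (P.i 1 v)⟫ := by
  rw [Q_apply, inner_add_left, real_inner_comm _ (P.Ls 0 _), ← P.adj, P.Li,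
    real_inner_comm (P.L 0 (P.i 1 u))]

theorem G0_symm (f g : X 0) : ⟪P.G0 f, g⟫ = ⟪f, P.G0 g⟫ := by
  have h1 := P.inner_Q (P.G 0 f) (P.G 0 g)
  have h2 := P.inner_Q (P.G 0 g) (P.G 0 f)
  rw [Q_G] at h1 h2
  change ⟪P.i 0 (P.i 1 (P.G 0 f)), g⟫ = ⟪f, P.i 0 (P.i 1 (P.G 0 g))⟫
  rw [h1, real_inner_comm, h2, real_inner_comm, real_inner_comm (P.L 0 (P.i 1 (P.G 0 g)))]

theorem G0_inj : Injective P.G0 := fun f g h => by
  have : P.G 0 f = P.G 0 g := P.i_inj 1 (P.i_inj 0 h)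
  rw [← P.Q_G 0 f, this, Q_G]

theorem G0_sq_le (f : X 0) : ‖P.G0 f‖ ^ 2 ≤ ⟪f, P.G0 f⟫ := by
  have h1 := P.inner_Q (P.G 0 f) (P.G 0 f)
  rw [Q_G, real_inner_self_eq_norm_sq, real_inner_self_eq_norm_sq] at h1
  exact (le_add_of_nonneg_right (sq_nonneg _)).trans h1.ge

theorem G0_le (f : X 0) : ‖P.G0 f‖ ≤ ‖f‖ := by
  have h1 := (P.G0_sq_le f).trans (real_inner_le_norm _ _)
  by_contra hc
  push Not at hc
  nlinarith [norm_nonneg f]

end Half

namespace Pair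
variable (P : Pair X Y)

/-- exchange the operator and its adjoint -/
def swap : Pair Y X where
  i := P.j
  j := P.i
  L := P.Ls
  Ls := P.L
  i_inj := P.j_inj
  j_inj := P.i_inj
  Li := P.Lsj
  Lsj := P.Li
  adj u v := by rw [real_inner_comm, ← P.adj, real_inner_comm]
  surjX := P.surjY
  surjY := P.surjX

/-- **The weak kernel of the adjoint is regular.** -/
theorem weak_ker {y : Y 0} (h : ∀ u, ⟪P.L 0 u, y⟫ = 0) :
    ∃ v, P.j 0 v = y ∧ P.Ls 0 v = 0 := by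
  obtain ⟨v, hv⟩ := P.surjY 0 y
  have h1 := h (P.Ls 1 v)
  rw [← hv, inner_add_right, P.adj, P.Lsj] at h1
  have h2 := real_inner_self_nonneg (x := P.L 0 (P.Ls 1 v))
  have h3 := real_inner_self_nonneg (x := P.Ls 0 (P.j 1 v))
  have h4 : P.L 0 (P.Ls 1 v) = 0 := real_inner_self_nonpos.1 (by linarith)
  have h5 : P.Ls 0 (P.j 1 v) = 0 := real_inner_self_nonpos.1 (by linarith)
  exact ⟨P.j 1 v, by rw [← hv, h4, add_zero], h5⟩

variable [∀ k, CompleteSpace (X k)] [∀ k, CompleteSpace (Y k)]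

/-- **Range**: if the range is closed at level `0`, it is the `L²`-complement of the kernel of the
adjoint at every level. -/
theorem mem_range_iff (hcl : IsClosed ((P.L 0).range : Set (Y 0))) (k : ℕ) (y : Y k) :
    y ∈ (P.L k).range ↔ ∀ v, P.Ls 0 v = 0 → ⟪dn0 P.j k y, P.j 0 v⟫ = 0 := by
  constructor
  · rintro ⟨u, rfl⟩ v hv
    change ⟪dn0 P.j k (P.L k u), _⟫ = 0
    rw [← P.L_dn1, P.adj, hv, inner_zero_right]
  · intro h
    have := hcl.completeSpace_coe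
    have h1 : dn0 P.j k y ∈ (P.L 0).rangeᗮᗮ := by
      intro z hz
      obtain ⟨v, rfl, hv⟩ := P.weak_ker (y := z) fun u => hz _ ⟨u, rfl⟩
      rw [real_inner_comm, h v hv]
    rw [Submodule.orthogonal_orthogonal] at h1
    obtain ⟨u, hu⟩ := h1
    obtain ⟨u', -, h2⟩ := P.reg_all k hu
    exact ⟨u', h2⟩

theorem closed_range (hcl : IsClosed ((P.L 0).range : Set (Y 0))) (k : ℕ) :
    IsClosed ((P.L k).range : Set (Y k)) := by
  have : ((P.L k).range : Set (Y k)) =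
      ⋂ v : (P.Ls 0).ker, {y | ⟪dn0 P.j k y, P.j 0 v⟫ = 0} := by
    ext y
    simp only [SetLike.mem_coe, P.mem_range_iff hcl, Set.mem_iInter, Set.mem_ofPred_eq,
      Subtype.forall]
    rfl
  rw [this]
  exact isClosed_iInter fun v => isClosed_eq (by fun_prop) continuous_const

/-- pairing with the kernel of the adjoint -/
def pr (k : ℕ) : Y k →ₗ[ℝ] Module.Dual ℝ (P.Ls 0).ker :=
  LinearMap.mk₂ ℝ (fun y v => ⟪dn0 P.j k y, P.j 0 v⟫)
    (fun _ _ _ => by simp [inner_add_left]) (fun _ _ _ => by simp [inner_smul_left])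
    (fun _ _ _ => by simp [inner_add_right]) (fun _ _ _ => by simp [inner_smul_right])

theorem ker_pr (hcl : IsClosed ((P.L 0).range : Set (Y 0))) (k : ℕ) :
    (P.pr k).ker = (P.L k).range := by
  ext y
  rw [P.mem_range_iff hcl, LinearMap.mem_ker, LinearMap.ext_iff]
  exact ⟨fun h v hv => h ⟨v, hv⟩, fun h v => h v v.2⟩

omit [∀ k, CompleteSpace (X k)] [∀ k, CompleteSpace (Y k)] in
theorem pr_surj [FiniteDimensional ℝ (P.Ls 0).ker] (k : ℕ) : Surjective (P.pr k) := by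
  let T : (P.Ls 0).ker →ₗ[ℝ] Y k := (P.j k).toLinearMap ∘ₗ (P.Ls k).ker.subtype ∘ₗ
    (P.swap.kerEquiv k).symm.toLinearMap
  have hT : ∀ v, dn0 P.j k (T v) = P.j 0 v := fun v => by
    have h := congrArg Subtype.val ((P.swap.kerEquiv k).apply_symm_apply v)
    rw [← h]
    exact (i_dn1 (i := P.j) k _).symm
  have h1 : Injective (P.pr k ∘ₗ T) := by
    refine (injective_iff_map_eq_zero _).2 fun v hv => ?_
    have h2 : ⟪dn0 P.j k (T v), P.j 0 v⟫ = 0 := LinearMap.congr_fun hv v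
    rw [hT, inner_self_eq_zero] at h2
    exact Subtype.ext (P.j_inj 0 (by simpa using h2))
  have h2 : Surjective (P.pr k ∘ₗ T) :=
    (LinearMap.injective_iff_surjective_of_finrank_eq_finrank Subspace.dual_finrank_eq.symm).1 h1
  exact Surjective.of_comp (g := T) h2

/-- The cokernel is dual to the kernel of the adjoint. -/
def cokerEquiv (hcl : IsClosed ((P.L 0).range : Set (Y 0))) [FiniteDimensional ℝ (P.Ls 0).ker]
    (k : ℕ) : (Y k ⧸ (P.L k).range) ≃ₗ[ℝ] Module.Dual ℝ (P.Ls 0).ker :=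
  (Submodule.quotEquivOfEq _ _ (P.ker_pr hcl k).symm).trans
    ((P.pr k).quotKerEquivOfSurjective (P.pr_surj k))

/-- **Fredholm property at every level.** -/
theorem isFredholm (hcl : IsClosed ((P.L 0).range : Set (Y 0)))
    [FiniteDimensional ℝ (P.L 0).ker] [FiniteDimensional ℝ (P.Ls 0).ker] (k : ℕ) :
    (P.L k).IsFredholm :=
  Fred93.isFredholm_of_finite (P.kerEquiv k).symm.finiteDimensional
    (P.cokerEquiv hcl k).symm.finiteDimensional

/-- **The index does not depend on the level.** -/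
theorem index_eq (hcl : IsClosed ((P.L 0).range : Set (Y 0)))
    [FiniteDimensional ℝ (P.Ls 0).ker] (k : ℕ) :
    (P.L k).toLinearMap.index = (finrank ℝ (P.L 0).ker : ℤ) - finrank ℝ (P.Ls 0).ker := by
  rw [LinearMap.index_eq_finrank_sub, (P.kerEquiv k).finrank_eq, (P.cokerEquiv hcl k).finrank_eq,
    Subspace.dual_finrank_eq]

/-- **Fredholm of index `dim ker L - dim ker L*`** from two estimates modulo compact operators. -/
theorem fr_of_est {Z Z' : Type*} [NormedAddCommGroup Z] [NormedSpace ℝ Z] [NormedAddCommGroup Z']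
    [NormedSpace ℝ Z'] {K : X 1 →L[ℝ] Z} {K' : Y 1 →L[ℝ] Z'} {C C' : ℝ} (hK : IsCompactOperator K)
    (hK' : IsCompactOperator K') (h : Fred93.Est (P.L 0) K C) (h' : Fred93.Est (P.Ls 0) K' C')
    (k : ℕ) : Fred93.Fr (P.L k) ((finrank ℝ (P.L 0).ker : ℤ) - finrank ℝ (P.Ls 0).ker) := by
  have := h.finite_ker hK
  have := h'.finite_ker hK'
  exact ⟨P.isFredholm (h.isClosed_range hK) k, P.index_eq (h.isClosed_range hK) k⟩

theorem surj_iff (hcl : IsClosed ((P.L 0).range : Set (Y 0))) (k : ℕ) :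
    Surjective (P.L k) ↔ ∀ v, P.Ls 0 v = 0 → v = 0 := by
  constructor
  · intro h v hv
    obtain ⟨v', h1, -⟩ := P.swap.ker_up k hv
    have h2 := (P.mem_range_iff hcl k (P.j k v')).1 (h _) v hv
    rw [← dn0_succ, ← i_dn1, show dn1 P.j k v' = v from h1, inner_self_eq_zero] at h2
    exact P.j_inj 0 (by simpa using h2)
  · intro h y
    exact (P.mem_range_iff hcl k y).2 fun v hv => by rw [h v hv, map_zero, inner_zero_right]

end Pair

end Crest.Agent.X212.Ell97
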