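import Crest.Agent.X212.Ell97.HL
import Crest.Agent.X212.Ell97.Hil

/-! `1 + L* L` is onto on every level; the Hilbert scales of an operator of Dirac type. -/

set_option autoImplicit false
set_option linter.unusedSectionVars false
noncomputable section
open scoped Manifold ContDiff Topology InnerProductSpace
open MeasureTheory Set Function Filter

namespace Crest.Agent.X212.Ell97
open An An.Pre Sob92

variable {E : Type} [NormedAddCommGroup E] [NormedSpace ℝ E] [FiniteDimensional ℝ E]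
  [MeasurableSpace E] [BorelSpace E]
  {HM : Type} [TopologicalSpace HM] {I : ModelWithCorners ℝ E HM}
  {M : Type} [TopologicalSpace M] [ChartedSpace HM M] [IsManifold I ∞ M]
  [MeasurableSpace M] {ι : Type} [Fintype ι]
  {U V W : Type} [NormedAddCommGroup U] [InnerProductSpace ℝ U]
  [NormedAddCommGroup V] [InnerProductSpace ℝ V] [NormedAddCommGroup W] [InnerProductSpace ℝ W]
  {F : Fr I M ι} {A : Op M ι V W} {s : ι → M → W →L[ℝ] V} {B' : M → W →L[ℝ] V} {C : ℕ → ℝ}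

variable (F A) in
/-- the symbol on `dχ` -/
def sy (χ : M → ℝ) : M → V →L[ℝ] W := fun x => ∑ a, F.D a χ x • A.σ a x

theorem app_smul {χ : M → ℝ} (hχ : Sm I χ) {u : M → V} (hu : Sm I u) (x : M) :
    A.app F (fun y => χ y • u y) x = χ x • A.app F u x + sy F A χ x (u x) := by
  have e : ∀ a, F.D a (fun y => χ y • u y) x = F.D a χ x • u x + χ x • F.D a u x :=
    fun a => dv_smul (md hχ x) (md hu x)
  simp only [Op.app, Pre.op, e, sy, map_add, map_smul, Finset.sum_add_distrib, smul_add,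
    Finset.smul_sum, _root_.sum_apply, _root_.smul_apply]
  abel

theorem ub_sy {J : Type*} {F : J → Fr I M ι} {A : J → Op M ι V W} (h : ∀ j, (A j).Good (F j) C)
    {χ : J → M → ℝ} (hχ : UB (fun j => (F j).toPre) χ) :
    UB (fun j => (F j).toPre) fun j => sy (F j) (A j) (χ j) :=
  UB.sum fun a => (hχ.D a).smul ⟨C, fun j => (h j).σ a⟩

theorem cb_sy (h : A.Good F C) {χ : M → ℝ} (hχ : F.Cb χ) : F.Cb (sy F A χ) :=
  let ⟨C1, h1⟩ := hχ
  let ⟨C2, h2⟩ := ub_sy (J := Unit) (fun _ => h) ⟨C1, fun _ => h1⟩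
  ⟨C2, h2 ()⟩

variable [T2Space M] [BorelSpace M] [SecondCountableTopology M]

theorem maps_sy (h : A.Good F C) (χ : M → ℝ) : Maps A.p A.q (sy F A χ) :=
  Maps.of_left fun x v => by
    simp only [sy, _root_.sum_apply, _root_.smul_apply, map_sum, map_smul, h.qσ]

theorem app_add {u v : M → V} (hu : Sm I u) (hv : Sm I v) (x : M) :
    A.app F (u + v) x = A.app F u x + A.app F v x := by
  simp only [Op.app, Pre.op, F.D_add hu hv, Pi.add_apply, map_add, Finset.sum_add_distrib]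
  abel

theorem sm_app (h : A.Good F C) {u : M → V} (hu : Sm I u) : Sm I (A.app F u) :=
  sm_op (fun a => (h.σ a).1) h.B.1 hu

variable (F A s B') in
/-- the commutator of `L* L` with a cut-off function -/
def CmH (χ : M → ℝ) (k : ℕ) : F.H (k + 1) A.p →L[ℝ] F.H k A.p :=
  ((dual A s B').H F k).comp (F.mulH (k + 1) A.p A.q (sy F A χ)) +
    (F.mulH k A.q A.p (sy F (dual A s B') χ)).comp (A.H F k)

theorem Du.CmH_toH (h : Du F A s B' C) {χ : M → ℝ} {C' : ℕ → ℝ} (hχ : F.CBs χ C') (k : ℕ)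
    (u : Sec I A.p) : CmH F A s B' χ k (F.toH (k + 1) A.p u) =
      F.toH k A.p (h.QS (cut hχ.1 u) - cut hχ.1 (h.QS u)) := by
  refine RepT_toH' (RepT_add (RepT_comp (rep_OpH h.g' k).1
    (rep_mulH (cb_sy h.g ⟨_, hχ⟩) (maps_sy h.g χ))) (RepT_comp
      (rep_mulH (cb_sy h.g' ⟨_, hχ⟩) (maps_sy h.g' χ)) (rep_OpH h.g k).1)) u _ (funext fun x => ?_)
  have e1 : A.app F (fun y => χ y • u.1 y) =
      (fun y => χ y • A.app F u.1 y) + fun y => sy F A χ y (u.1 y) :=
    funext fun y => app_smul hχ.1 u.2.1 y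
  change _ = χ x • u.1 x + (dual A s B').app F (A.app F fun y => χ y • u.1 y) x -
    χ x • (u.1 x + (dual A s B').app F (A.app F u.1) x)
  rw [e1, app_add (u := fun y => χ y • A.app F u.1 y) (hχ.1.smul (sm_app h.g u.2.1))
    ((cb_sy h.g ⟨_, hχ⟩).choose_spec.1.clm_apply u.2.1), app_smul hχ.1 (sm_app h.g u.2.1),
    Pi.add_apply, smul_add]
  abel

theorem Du.norm_CmH (h : Du F A s B' C) (k : ℕ) :
    ∃ c : ℝ, 0 ≤ c ∧ ∀ χ, F.CBs χ C → ∀ x, ‖CmH F A s B' χ k x‖ ≤ c * ‖x‖ := by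
  have hχ : UB (J := {χ : M → ℝ // F.CBs χ C}) (fun _ => F.toPre) fun j => j.1 := ⟨C, fun j => j.2⟩
  obtain ⟨C1, h1⟩ := ub_sy (A := fun _ => A) (fun _ => h.g) hχ
  obtain ⟨C2, h2⟩ := ub_sy (A := fun _ => dual A s B') (fun _ => h.g') hχ
  have := cK_nonneg (ι := ι) k
  have := cK_nonneg (ι := ι) (k + 1)
  refine ⟨‖(dual A s B').H F k‖ * (cK ι (k + 1) * |C1 (k + 1)|) + cK ι k * |C2 k| * ‖A.H F k‖,
    by positivity, fun χ hc x => ContinuousLinearMap.le_of_opNorm_le _ ?_ x⟩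
  have h3 := norm_mulH_le (h1 ⟨χ, hc⟩).1 ((h1 ⟨χ, hc⟩).2 (k + 1)) (maps_sy h.g χ)
  have h4 := norm_mulH_le (h2 ⟨χ, hc⟩).1 ((h2 ⟨χ, hc⟩).2 k) (maps_sy h.g' χ)
  refine (norm_add_le _ _).trans (add_le_add ?_ ?_)
  · exact (ContinuousLinearMap.opNorm_comp_le _ _).trans
      (mul_le_mul_of_nonneg_left h3 (norm_nonneg _))
  · exact (ContinuousLinearMap.opNorm_comp_le _ _).trans
      (mul_le_mul_of_nonneg_right h4 (norm_nonneg _))

theorem Du.incl_CmH (h : Du F A s B' C) {χ : M → ℝ} {C' : ℕ → ℝ} (hχ : F.CBs χ C') (k : ℕ)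
    (x : F.H (k + 1) A.p) :
    F.incl k 0 A.p (CmH F A s B' χ k x) = CmH F A s B' χ 0 (F.incl (k + 1) 1 A.p x) := by
  induction x using H_ind with
  | hP => exact isClosed_eq (by fun_prop) (by fun_prop)
  | h u => rw [h.CmH_toH hχ, incl_toH (Nat.zero_le k), incl_toH (by omega), h.CmH_toH hχ]

theorem inner_cut {p : M → V →L[ℝ] V} {χ : M → ℝ} (hχ : Sm I χ) (u v : Sec I p) :
    ⟪F.toH 0 p (cut hχ u), F.toH 0 p v⟫_ℝ = ⟪F.toH 0 p u, F.toH 0 p (cut hχ v)⟫_ℝ := by
  simp only [inner_toH, Pre.ip, cut, real_inner_smul_left, real_inner_smul_right]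

variable [FiniteDimensional ℝ V]

theorem Du.bt_smul (h : Du F A s B' C) {χ : M → ℝ} {C' : ℕ → ℝ} (hχ : F.CBs χ C')
    (x : F.H 1 A.p) (φ : Sec I A.p) : bt F A (smulH F.toPre 1 A.p χ x) (F.toH 1 A.p φ) =
      bt F A x (F.toH 1 A.p (cut hχ.1 φ)) + ⟪CmH F A s B' χ 0 x, F.toH 0 A.p φ⟫_ℝ := by
  induction x using H_ind with
  | hP => exact isClosed_eq (by fun_prop) (by fun_prop)
  | h u =>
    rw [smulH_toH hχ, h.bt_toH, h.bt_toH, h.CmH_toH hχ, map_sub, inner_sub_left, inner_cut]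
    ring

theorem cut_eq {p : M → V →L[ℝ] V} {χ : M → ℝ} (hχ : Sm I χ) {u : Sec I p}
    (h : ∀ x ∈ tsupport u.1, χ x = 1) : cut hχ u = u := by
  refine Subtype.ext (funext fun x => ?_)
  by_cases hx : x ∈ tsupport u.1
  · simp [cut, h x hx]
  · simp [cut, image_eq_zero_of_notMem_tsupport hx]

theorem Du.mem_range (h : Du F A s B' C) (hr : Reg V F) (k : ℕ) {x : F.H (k + 1) A.p}
    {f : Sec I A.p}
    (hx : ∀ y, bt F A (F.incl (k + 1) 1 A.p x) y = ⟪F.toH 0 A.p f, F.incl 1 0 A.p y⟫_ℝ) :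
    F.toH k A.p f ∈ range (QH F A s B' k) := by
  obtain ⟨K, hK, hK'⟩ := h.estH
  obtain ⟨c, hc, hc'⟩ := h.norm_CmH k
  rw [← (Fred93.isClosed_range_of_bound (hK' k).2).closure_eq, Metric.mem_closure_iff]
  intro ε hε
  obtain ⟨φ, hφ⟩ := (F.dense_toH (k + 1) A.p).exists_dist_lt x
    (show 0 < ε / (c + 1) by positivity)
  obtain ⟨χ, hχ, hcs, -, h1⟩ := h.tame.exh _
    ((φ.2.2.1.isCompact.union f.2.2.1.isCompact).union (h.QS φ).2.2.1.isCompact)
  obtain ⟨v, hv⟩ := h.loc_smooth hr hx hχ hcs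
  have e1 : F.toH k A.p (h.QS v) = F.toH k A.p f + CmH F A s B' χ k x := by
    refine incl_inj F (Nat.zero_le k) _ (H_ext fun ψ => ?_)
    rw [incl_toH (Nat.zero_le k), ← h.bt_toH, ← hv, h.bt_smul hχ, hx, incl_toH zero_le_one,
      ← inner_cut, cut_eq hχ.1 fun y hy => h1 y (Or.inl (Or.inr hy)), map_add,
      incl_toH (Nat.zero_le k), h.incl_CmH hχ, inner_add_left]
  have e2 : CmH F A s B' χ k (F.toH (k + 1) A.p φ) = 0 := by
    rw [h.CmH_toH hχ, cut_eq hχ.1 fun y hy => h1 y (Or.inl (Or.inl hy)),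
      cut_eq hχ.1 fun y hy => h1 y (Or.inr hy), sub_self, map_zero]
  refine ⟨_, ⟨F.toH (k + 2) A.p v, rfl⟩, ?_⟩
  have h2 := hc' χ hχ (x - F.toH (k + 1) A.p φ)
  rw [map_sub, e2, sub_zero, ← dist_eq_norm] at h2
  rw [h.QH_toH, e1, dist_self_add_right]
  rw [lt_div_iff₀ (by positivity)] at hφ
  nlinarith [dist_nonneg (x := x) (y := F.toH (k + 1) A.p φ)]

/-- **`1 + L* L` is onto.** -/
theorem Du.surj (h : Du F A s B' C) (hr : Reg V F) (k : ℕ) : Surjective (QH F A s B' k) := by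
  have key : ∀ k (f : Sec I A.p), F.toH k A.p f ∈ range (QH F A s B' k) := by
    intro k
    induction k with
    | zero =>
      intro f
      obtain ⟨x, hx⟩ := h.weak (F.toH 0 A.p f)
      exact h.mem_range hr 0 (x := x) fun y => by rw [incl_self, hx]
    | succ k ih =>
      intro f
      obtain ⟨x, hx⟩ := ih f
      exact h.mem_range hr (k + 1) (x := x) fun y => by
        rw [h.bt_incl, hx, incl_toH (Nat.zero_le k)]
  obtain ⟨K, -, hK'⟩ := h.estH
  exact fun y => H_ind (P := fun y => y ∈ range (QH F A s B' k)) y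
    (Fred93.isClosed_range_of_bound (hK' k).2) (key k)

/-- the Hilbert scales of the data -/
def Du.half (h : Du F A s B' C) (hr : Reg V F) :
    Half (fun k => F.H k A.p) (fun k => F.H k A.q) where
  i k := F.incl (k + 1) k A.p
  j k := F.incl (k + 1) k A.q
  L k := A.H F k
  Ls k := (dual A s B').H F k
  i_inj k := incl_inj F k.le_succ _
  j_inj k := incl_inj F k.le_succ _
  Li k := incl_OpH h.g k.le_succ
  Lsj k := incl_OpH h.g' k.le_succ
  adj := h.adjH
  surjX := h.surj hr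

omit [FiniteDimensional ℝ V] in
theorem dn0_incl (p : M → V →L[ℝ] V) (k : ℕ) (x : F.H k p) :
    dn0 (X := fun k => F.H k p) (fun k => F.incl (k + 1) k p) k x = F.incl k 0 p x := by
  induction k with
  | zero => exact (incl_self x).symm
  | succ k ih => rw [dn0_succ, ih, incl_incl k.le_succ (Nat.zero_le k)]

omit [FiniteDimensional ℝ V] in
theorem dn1_incl (p : M → V →L[ℝ] V) (k : ℕ) (x : F.H (k + 1) p) :
    dn1 (X := fun k => F.H k p) (fun k => F.incl (k + 1) k p) k x = F.incl (k + 1) 1 p x := by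
  induction k with
  | zero => exact (incl_self x).symm
  | succ k ih => rw [dn1_succ, ih, incl_incl (by omega) (by omega)]

variable [FiniteDimensional ℝ W] {C' : ℕ → ℝ}

variable (F A) in
/-- the formal adjoint on Sobolev spaces, with the bundles of `A` in its type -/
abbrev Hs (k : ℕ) : F.H (k + 1) A.q →L[ℝ] F.H k A.p := (A.adj F).H F k

variable (F A) in
/-- `1 + A* A` -/
abbrev Qa (k : ℕ) : F.H (k + 2) A.p →L[ℝ] F.H k A.p := QH F A (A.adj F).σ (A.adj F).B k

theorem Qa_apply (k : ℕ) (x : F.H (k + 2) A.p) :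
    Qa F A k x = F.incl (k + 2) k A.p x + Hs F A k (A.H F (k + 1) x) := by
  rw [← incl_incl (j := k + 1) (by omega) (by omega)]; rfl

theorem du_of (hF : F.Tame C) (hA : A.Good F C') : ∃ C'' : ℕ → ℝ,
    (A.CliffL F → Du F A (A.adj F).σ (A.adj F).B C'') ∧
      ((A.adj F).CliffL F → Du F (A.adj F) A.σ A.B C'') :=
  let ⟨C'', h⟩ := du_fam (J := Unit) (C := fun k => max (C k) (C' k))
    (fun _ => Tame_mono hF fun _ => le_max_left _ _) fun _ => Good_mono hA fun _ => le_max_right _ _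
  ⟨C'', h ()⟩

theorem good_adj (hF : F.Tame C) (hA : A.Good F C') : ∃ C'', (A.adj F).Good F C'' :=
  let ⟨C'', _, h⟩ := good_adj_fam (J := Unit) (C := fun k => max (C k) (C' k))
    (fun _ => Tame_mono hF fun _ => le_max_left _ _) fun _ => Good_mono hA fun _ => le_max_right _ _
  ⟨C'', h ()⟩

/-- **The scales of an operator with injective conformal symbol.** -/
def half (hr : Reg V F) (hF : F.Tame C) (hA : A.Good F C') (hc : A.CliffL F) :
    Half (fun k => F.H k A.p) (fun k => F.H k A.q) :=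
  ((du_of hF hA).choose_spec.1 hc).half hr

/-- **The scales of an operator of Dirac type.** -/
def pair (hr : Reg V F) (hr' : Reg W F) (hF : F.Tame C) (hA : A.Good F C') (hc : A.Cliff F) :
    Pair (fun k => F.H k A.p) (fun k => F.H k A.q) where
  toHalf := half hr hF hA hc.1
  surjY := ((du_of hF hA).choose_spec.2 hc.2).surj hr'

section
variable (hr : Reg V F) (hF : F.Tame C) (hA : A.Good F C') (hc : A.CliffL F) (k : ℕ)

@[simp] theorem half_i : (half hr hF hA hc).i k = F.incl (k + 1) k A.p := rfl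
@[simp] theorem half_j : (half hr hF hA hc).j k = F.incl (k + 1) k A.q := rfl
@[simp] theorem half_L : (half hr hF hA hc).L k = A.H F k := rfl
@[simp] theorem half_Ls : (half hr hF hA hc).Ls k = Hs F A k := rfl
@[simp] theorem half_Q : (half hr hF hA hc).Q k = Qa F A k := rfl

end

variable (I M V W) in
/-- **Uniform estimates**: Gårding and resolvent. -/
theorem est_unif (C : ℕ → ℝ) : ∃ K : ℕ → ℝ, (∀ k, 0 ≤ K k) ∧
    ∀ (F : Fr I M ι) (A : Op M ι V W), F.Tame C → A.Good F C → A.CliffL F → ∀ k,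
      (∀ x : F.H (k + 1) A.p, ‖x‖ ≤ K k * (‖A.H F k x‖ + ‖F.incl (k + 1) 0 A.p x‖)) ∧
      ∀ x : F.H (k + 2) A.p, ‖x‖ ≤ K k * ‖Qa F A k x‖ := by
  let J := {d : Fr I M ι × Op M ι V W // d.1.Tame C ∧ d.2.Good d.1 C ∧ d.2.CliffL d.1}
  obtain ⟨C', h⟩ := du_fam (J := J) (F := fun j => j.1.1) (A := fun j => j.1.2) (fun j => j.2.1)
    fun j => j.2.2.1
  obtain ⟨K, hK, h1⟩ := estH_fam fun j : J => (h j).1 j.2.2.2
  exact ⟨K, hK, fun F A h2 h3 h4 k => h1 ⟨(F, A), h2, h3, h4⟩ k⟩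

end Crest.Agent.X212.Ell97
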